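import Vale.Agent.P283B.VOL.St
import Vale.Agent.P283B.U.Der

/-!
# P283B, block VOL: charts of bounded size, by a limit argument
-/

open Set Filter
open Vale.Agent.P285N.Brep (jac Fr)
open Vale.Agent.P297Z

noncomputable section

namespace Vale.Agent.P283B.Vo

open P287D P287D.Cb P283B.U

theorem eq_of_chg {K : Type} [Field K] [Algebra ℂ K] {k : ℕ} {x y : Fin k → K} {j φ : K}
    (h : kap x = kap y + dv j) (hj : j ≠ 0) (hφ : φ ≠ 0) (hy : ∀ a, y a ≠ 0) (N : ℕ) (P : Pl K) :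
    (P.ord (φ * (j * ∏ a, y a) ^ N) : ℝ) = P.ord φ + N * (kap x P + 1 - al y P) := by
  have p : ∏ a, y a ≠ 0 := Finset.prod_ne_zero_iff.2 fun a _ => hy a
  rw [Pl.ord_mul _ hφ (pow_ne_zero _ (mul_ne_zero hj p)), Pl.ord_pow, Pl.ord_mul _ hj p,
    Pl.ord_prod _ _ fun a _ => hy a, h, al, Pi.add_apply, dv_apply]
  push_cast
  ring

variable {U : Ultrafilter ℕ} {c : Cq U} {n : ℕ} {K : ℕ → Type} [∀ i, Field (K i)]
  [∀ i, Algebra ℂ (K i)] {L : Type} [Field L] [Algebra ℂ L]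

/-- the functions which are regular at most of the given places -/
def lr (D : Lm c n K L) (E : ∀ i, Pl (K i)) : ValuationSubring L where
  carrier := {f | ∀ᶠ i in U, D.r i f ∈ (E i).ring}
  mul_mem' {a b} x y := by
    filter_upwards [x, y, D.mul a b] with i h1 h2 h3 using h3 ▸ mul_mem h1 h2
  one_mem' := D.one.mono fun _ h => h ▸ one_mem _
  add_mem' {a b} x y := by
    filter_upwards [x, y, D.add a b] with i h1 h2 h3 using h3 ▸ add_mem h1 h2
  zero_mem' := D.zero.mono fun _ h => h ▸ zero_mem _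
  neg_mem' {a} x := by
    filter_upwards [x, D.neg a] with i h1 h2 using h2 ▸ neg_mem h1
  mem_or_inv_mem' f := Ultrafilter.eventually_or.1 ((D.inv f).mono fun i h =>
    h ▸ (E i).ring.mem_or_inv_mem _)

theorem rank_le (D : Lm c n K L) {y : Fin n → L} (h : AlgebraicIndependent ℂ y) : ∃ e : ℕ,
    ∀ᶠ i in U, Module.finrank (IntermediateField.adjoin ℂ (range fun a => D.r i (y a))) (K i) = e := by
  obtain ⟨s, hs⟩ := D.gen
  exact ⟨_, (c.cs.rank_ev (y := fun a i => D.r i (y a)) (x := fun (a : s) i => D.r i a) (D.ind h)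
    (hs.mono fun i e => by rwa [image_eq_range] at e) fun a =>
      D.rho_alg ((D.ff.basis h).isAlgebraic_field.isAlgebraic _)).mono fun _ a => a.2⟩

theorem im_hy (D : Lm c n K L) {k : ℕ} (y : Fin k → L) :
    ∀ᶠ i in U, D.im i (hy y) = hy fun a => D.r i (y a) := D.one.mono fun i h => by
  classical
  rw [Lm.im, hy, hy, Finset.image_insert, h, Finset.image_image]
  congr!

/-- **BM** -/
theorem bm (hU : UA) (hC : CH) : BM := fun n N V => by
  classical
  by_contra z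
  simp only [ForN, not_exists, not_forall] at z
  choose K _ _ hK S x φ h1 h2 h3 h4 h5 h6 h7 h8 E h9 using z
  obtain ⟨c⟩ := nonempty_cq (hyperfilter ℕ)
  obtain ⟨L, _, _, D, u, -, -, u3⟩ := hU.ex _ c (n + 1) K S V hK (.of_forall fun i =>
    ⟨h1 i, h2 i, h3 i⟩)
  have rc : D.RC := hU.rc _ c (n + 1) K L D
  have lim : ∀ g : ∀ i, K i, (∀ i, g i ∈ S i) → ∃ f, ∀ᶠ i in hyperfilter ℕ, D.r i f = g i :=
    fun g hg => (D.lim_span u (u3.mono fun i e => by
      rw [← Finset.coe_image]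
      exact e.ge (Submodule.subset_span (hg i)))).imp fun _ => And.right
  choose x' hx using fun a => lim (fun i => x i a) fun i => h5 i a
  replace hx := (eventually_all.2 hx).mono fun i => funext
  obtain ⟨ψ, hψ⟩ := lim _ h7
  have hf : ∀ᶠ i in hyperfilter ℕ, D.r i ψ⁻¹ = φ i :=
    (hψ.and (D.inv ψ)).mono fun i e => by rw [e.2, e.1, inv_inv]
  generalize ψ⁻¹ = f at hf
  have f0 : f ≠ 0 := fun e => let ⟨i, a, b⟩ := (hf.and D.zero).exists; h6 i (by rw [← a, e, b])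
  have xi : AlgebraicIndependent ℂ x' := D.ind_of (hx.mono fun i e => e ▸ h4 i)
  obtain ⟨y, Dr, J, P, c1, c2, c3, c4⟩ := hC n L D.ff {f} x' (lr D E) xi fun a =>
    (D.cst' a).mono fun i ⟨b, e⟩ => e ▸ (E i).con b
  have yi := (jac_ne_iff c1 y).1 (jac_ne c1 c1)
  have j0 := (jac_ne_iff c1 x').2 xi
  have y0 := yi.ne_zero
  have p0 : ∏ a, y a ≠ 0 := Finset.prod_ne_zero_iff.2 fun a _ => y0 a
  have F0 : f * (jac Dr x' * ∏ a, y a) ^ N ≠ 0 :=
    mul_ne_zero f0 (pow_ne_zero _ (mul_ne_zero j0 p0))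
  have reg : f * (jac Dr x' * ∏ a, y a) ^ N ∈ lr D E := by
    have a : ∀ k ∈ J, ∃ m : ℕ, (P k).ord f + N * ((P k).ord (jac Dr x') + 1) = m := fun k hk => by
      obtain ⟨i, e1, e2, e3, e4⟩ :=
        (hf.and (hx.and ((D.ord_sp (P k) f).and (D.kap_sp (P k) x')))).exists
      have := h8 i (D.sp (P k) i)
      rw [← e1, ← e2, e3, e4, kap_chg c1 j0, Pi.add_apply, (c3 k hk).1, zero_add, dv_apply] at this
      exact Int.eq_ofNat_of_zero_le (by exact_mod_cast this)
    choose! m hm using a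
    have e : f * (jac Dr x' * ∏ a, y a) ^ N = f / (∏ k ∈ J, y k ^ (P k).ord f) *
        (jac Dr x' / (∏ k ∈ J, y k ^ (P k).ord (jac Dr x')) * ∏ k ∈ Jᶜ, y k) ^ N *
        ∏ k ∈ J, y k ^ m k := by
      have q : ∀ w : Fin (n + 1) → ℤ, ∏ k ∈ J, y k ^ w k ≠ 0 := fun w =>
        Finset.prod_ne_zero_iff.2 fun k _ => zpow_ne_zero _ (y0 k)
      rw [Finset.prod_congr rfl fun k hk => show y k ^ m k = y k ^ (P k).ord f *
          (y k ^ (P k).ord (jac Dr x') * y k) ^ N by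
        rw [← zpow_natCast, ← hm k hk, zpow_add₀ (y0 k), mul_comm (N : ℤ), zpow_mul,
          zpow_add_one₀ (y0 k), zpow_natCast],
        Finset.prod_mul_distrib, Finset.prod_pow, Finset.prod_mul_distrib,
        ← Finset.prod_mul_prod_compl J, mul_mul_mul_comm, div_mul_cancel₀ _ (q _), ← mul_pow]
      congr 2
      field_simp [q]
    rw [e]
    exact mul_mem (mul_mem (c4 f (by simp) f0).1 (pow_mem (mul_mem (c4 _ (Or.inr rfl) j0).1
      (prod_mem fun k _ => c2 k)) N)) (prod_mem fun k _ => pow_mem (c2 k) _)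
  have eF : ∀ᶠ i in hyperfilter ℕ, D.r i (f * (jac Dr x' * ∏ a, y a) ^ N) =
      φ i * (D.r i (jac Dr x') * ∏ a, D.r i (y a)) ^ N := by
    filter_upwards [hf, D.mul f ((jac Dr x' * ∏ a, y a) ^ N), D.pow (jac Dr x' * ∏ a, y a) N,
      D.mul (jac Dr x') (∏ a, y a), D.prod Finset.univ y] with i k1 k2 k3 k4 k5
    rw [k2, k3, k4, k5, k1]
  generalize f * (jac Dr x' * ∏ a, y a) ^ N = F at F0 reg eF
  obtain ⟨e, he⟩ := rank_le D yi
  have m1 := mx_mem_Car (hy y)
  have m2 := add_mem (mx_mem_Car u) (mx_mem_Car {1, F})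
  have bg : Big (mx (hy y)) := big_of_basis (D.ff.basis yi) (by simp [hy]) fun a => by simp [hy]
  obtain ⟨ε, e0, G, g⟩ := bg.exists_eff m2
  obtain ⟨M, hM⟩ := exists_nat_ge ε⁻¹
  have m3 := Submodule.smul_mem _ (-ε) m2
  rw [sub_eq_add_neg, ← neg_smul] at g
  have : ∀ᶠ i : ℕ in hyperfilter ℕ, False := by
    filter_upwards [hx, eventually_all.2 c2, D.ind yi, D.ne F0, reg, eF, D.kap_ev c1 j0, D.ne j0,
      he, rc.rep _ (add_mem m1 m3) _ g, rc.add _ m1 _ m3, rc.smul (-ε) _ m2,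
      rc.add _ (mx_mem_Car u) _ (mx_mem_Car {1, F}), rc.sys u, rc.sys {1, F}, rc.sys (hy y), u3,
      im_hy D y, D.one, (Nat.hyperfilter_le_atTop (eventually_ge_atTop (max e M)) :)]
      with i k1 k2 k3 k4 k5 k6 k7 k8 k9 l1 l2 l3 l4 l5 l6 l7 l8 l9 l10 l11
    refine h9 i _ _ ⟨k3, k2, k4, k5, fun Q => ?_, k9.trans_le (le_of_max_le_left l11), ?_⟩
    · rw [k6]
      exact eq_of_chg (k1 ▸ k7) k8 (h6 i) k3.ne_zero N Q
    · have e : D.im i {1, F} = {1, D.r i F} := by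
        ext z
        simp [Lm.im, l10]
      rw [l2, l3, l4, l5, l6, l7, l9, mx_congr_span l8, e] at l1
      have := (l1.eff.smul (inv_pos.2 e0).le).add ((eff_mx (hy fun a => D.r i (y a))).smul
        (sub_nonneg.2 (hM.trans (Nat.cast_le.2 (le_of_max_le_right l11)))))
      convert this using 1
      rw [smul_add, smul_smul, mul_neg, inv_mul_cancel₀ e0.ne']
      module
  exact this.exists.elim fun _ => id

end Vale.Agent.P283B.Vo
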