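import Vale.Agent.P283B.VOL.St
import Vale.Agent.P287D.Ba.Cn
import Vale.Agent.P287D.Cb.Kap

/-!
# P283B, block VOL: charts at the centre of a valuation ring
-/

set_option linter.unusedVariables false

open Set
open Vale.Agent.P297 (Place)
open Vale.Agent.P285N.Brep (jac Fr)
open Vale.Agent.P277Z Vale.Agent.P277Z.FI

noncomputable section

namespace Vale.Agent.P283B.Vo

open P287D

variable {n : ℕ} {K : Type} [Field K] [Algebra ℂ K]

theorem ord_prod' (Q : Place K) {ι : Type} (J : Finset ι) {g : ι → K} (h : ∀ j, g j ≠ 0) :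
    Q.ord (∏ j ∈ J, g j) = ∑ j ∈ J, Q.ord (g j) := by
  classical
  induction J using Finset.induction_on with
  | empty => simp
  | insert a J ha ih =>
    rw [Finset.prod_insert ha, Finset.sum_insert ha,
      P297Z.Pl.ord_mul Q (h a) (Finset.prod_ne_zero_iff.2 fun j _ => h j), ih]

/-- valuation rings which contain the constants have centres -/
theorem ctr_val {M : Mdl n 0 K} (hM : M.Proj) (R : ValuationSubring K)
    (h : ∀ c, algebraMap ℂ K c ∈ R) : ∃ x, ∀ f ∈ M.O x, f ∈ R :=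
  (P270L.Md.ctr hM R.valuation fun c => (R.valuation_le_one_iff _).2 (h c)).imp
    fun _ hx f hf => (R.valuation_le_one_iff _).1 (hx f hf)

/-- the orders of coordinates along a coordinate hyperplane -/
theorem ord_coord {M : Mdl n 0 K} (hM : M.Proj) {x : M.F} {t : Fin n → K} (ht : M.Coord x t)
    {P : Pl K} {j : Fin n} (hP : M.Gn x P.toPlace (t j)) :
    kap t P = 0 ∧ ∀ i, P.ord (t i) = if i = j then 1 else 0 := by
  classical
  obtain ⟨D, a, -, b⟩ := Ba.ad_coord hM ht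
  have k : kap t P = 0 := by
    rw [Cb.kap_eq (b P ⟨_, hP⟩), Cb.jac_self a, P297Z.Pl.ord_one, Int.cast_zero]
  refine ⟨k, fun i => ?_⟩
  split_ifs with e
  · exact e ▸ hP.ord
  have nn : ∀ l, 0 ≤ P.ord (t l) := fun l => P297Z.Pl.ord_nonneg_of_mem _ (hP.le _ (ht.1 l).1)
  have s := Cb.sum_le_kap (Cb.ff_of a)
    ((Cb.jac_ne_iff a t).1 (by rw [Cb.jac_self a]; exact one_ne_zero)) P
  have d := Finset.add_le_sum (s := Finset.univ) (f := fun l => (P.ord (t l) : ℝ))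
    (fun l _ => Int.cast_nonneg (nn l)) (Finset.mem_univ i) (Finset.mem_univ j) e
  rw [k] at s
  have o : P.ord (t j) = 1 := hP.ord
  simp only [o, Int.cast_one] at d
  have : (P.ord (t i) : ℝ) ≤ 0 := by linarith
  exact le_antisymm (by exact_mod_cast this) (nn i)

/-- a function whose divisor near `x` lies in the coordinate hyperplanes is monomial -/
theorem mon_coord {M : Mdl n 0 K} (hM : M.Proj) {x : M.F} {t : Fin n → K} (ht : M.Coord x t)
    {J : Finset (Fin n)} {P : Fin n → Pl K} (hP : ∀ j ∈ J, M.Gn x (P j).toPlace (t j))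
    {f : K} (f0 : f ≠ 0) (hf : ∀ Q, M.On x Q → Q.ord f ≠ 0 → ∃ j ∈ J, Q = (P j).toPlace) :
    f / ∏ j ∈ J, t j ^ (P j).ord f ∈ M.O x ∧ (∏ j ∈ J, t j ^ (P j).ord f) / f ∈ M.O x := by
  classical
  have hL := Bm.loc hM
  obtain ⟨D, a, -⟩ := Ba.fr_coord hM ht
  have t0 : ∀ j, t j ≠ 0 :=
    ((Cb.jac_ne_iff a t).1 (by rw [Cb.jac_self a]; exact one_ne_zero)).ne_zero
  have p0 : ∀ j, t j ^ (P j).ord f ≠ 0 := fun j => zpow_ne_zero _ (t0 j)
  have q0 : ∏ j ∈ J, t j ^ (P j).ord f ≠ 0 := Finset.prod_ne_zero_iff.2 fun j _ => p0 j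
  have k : ∀ Q, M.On x Q → Q.ord (∏ j ∈ J, t j ^ (P j).ord f) = Q.ord f := fun Q hQ => by
    rw [ord_prod' Q J p0]
    simp only [P297Z.Pl.ord_zpow]
    by_cases e : ∃ j ∈ J, Q = (P j).toPlace
    · obtain ⟨j, hj, rfl⟩ := e
      have o := (ord_coord hM ht (hP j hj)).2
      simp only [o, mul_ite, mul_one, mul_zero]
      rw [Finset.sum_ite_eq' J j, if_pos hj]
    · rw [not_not.1 (mt (hf Q hQ) e)]
      exact Finset.sum_eq_zero fun j hj => by
        rw [hL.other x _ Q _ (hP j hj) hQ fun c => e ⟨j, hj, c⟩, mul_zero]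
  exact ⟨hL.mem x _ fun Q hQ => by rw [P297Z.Pl.ord_div _ f0 q0, k Q hQ, sub_self],
    hL.mem x _ fun Q hQ => by rw [P297Z.Pl.ord_div _ q0 f0, k Q hQ, sub_self]⟩

/-- **CH** -/
theorem ch : CH := fun n K _ _ hK S x R hx hR => by
  classical
  obtain ⟨M₀, h₀⟩ := Bm.exists_mdl hK
  obtain ⟨E, hE⟩ := Cb.fr_of hK hx
  obtain ⟨κ, hκ⟩ := Ba.exists_can h₀ hE
  have fT : ((⋃ f ∈ S, {Q | M₀.Pr Q ∧ Q.ord f ≠ 0}) ∪ (κ.support : Set (Place K))).Finite :=
    (S.finite_toSet.biUnion fun f _ => (Bm.loc h₀).fin f).union κ.support.finite_toSet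
  obtain ⟨M, ⟨m⟩, hM, hg⟩ := box.hir _ _ K M₀ h₀ _ 0 Fin.elim0 fT fun j => j.elim0
  have hL := Bm.loc hM
  obtain ⟨p, hp⟩ := ctr_val hM R hR
  obtain ⟨t, ht, h1⟩ := (hg p).2
  obtain ⟨D, a, -, b⟩ := Ba.ad_coord hM ht
  have t0 : ∀ j, t j ≠ 0 :=
    ((Cb.jac_ne_iff a t).1 (by rw [Cb.jac_self a]; exact one_ne_zero)).ne_zero
  obtain ⟨Q₀, hQ₀, -⟩ := hL.van p _ (ht.1 0).1 (t0 0) (ht.1 0).2
  have : Nonempty (Pl K) := ⟨Bm.toPl hM ⟨p, hQ₀⟩⟩
  choose! P hP using fun j (h : ∃ Q : Pl K, M.Gn p Q.toPlace (t j)) => h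
  have hJ : ∀ j ∈ Finset.univ.filter fun j => ∃ Q : Pl K, M.Gn p Q.toPlace (t j),
      M.Gn p (P j).toPlace (t j) := fun j hj => hP j (Finset.mem_filter.1 hj).2
  refine ⟨t, D, _, P, a, fun j => hp _ (ht.1 j).1, fun j hj => ord_coord hM ht (hJ j hj),
    fun f hf f0 => (mon_coord hM ht hJ f0 fun Q hQ o => ?_).imp (hp _) (hp _)⟩
  obtain ⟨Q, rfl⟩ := Bm.pl_of_pr hM ⟨p, hQ⟩
  obtain ⟨i, hi⟩ := h1 _ hQ (.inl (by
    by_cases c : M₀.Pr Q.toPlace
    · refine .inl (hf.imp (fun e => mem_biUnion e ⟨c, o⟩) fun e => ?_)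
      rw [Finset.mem_coe, Finsupp.mem_support_iff, ← Ba.can_kap h₀ hκ c, Cb.kap_eq (b Q hQ), ← e]
      exact_mod_cast o
    · exact .inr ⟨⟨p, hQ⟩, c⟩))
  refine ⟨i, Finset.mem_filter.2 ⟨Finset.mem_univ _, Q, hi⟩, by_contra fun c => ?_⟩
  exact zero_ne_one ((hL.other p _ _ _ (hP i ⟨Q, hi⟩) hQ c).symm.trans hi.ord)

end Vale.Agent.P283B.Vo
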