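import Vale.Agent.P283B.VOL.St2
import Vale.Agent.P287D.On.Val
import Vale.Agent.P287D.Gm.IrrA

/-!
# P283B, block VOL: the minimal polynomial of a section of a multiple of the hyperplane (`NP3`)
-/

set_option linter.unusedVariables false
set_option linter.unusedSectionVars false

open Set Function MvPolynomial
open Vale.Agent.P297Z

noncomputable section

namespace Vale.Agent.P283B.Vo.Np

open P287D

variable {K : Type} [Field K] [Algebra ℂ K] {n : ℕ}

/-- an integral element whose inverse lies in the ring lies in the ring -/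
theorem mem_of_inv {V : Subalgebra ℂ K} {g : K} (hg : IsIntegral V g) (h : g⁻¹ ∈ V) : g ∈ V := by
  by_cases g0 : g = 0
  · rw [g0]
    exact zero_mem _
  obtain ⟨p, p1, p2⟩ := hg
  let := invertibleOfNonzero g0
  have e := (Polynomial.eval₂_reverse_eq_zero_iff (algebraMap V K) g p).2 p2
  have r : p.reverse.IsRoot ⟨g⁻¹, h⟩ := Subtype.val_injective (by
    rw [invOf_eq_inv] at e
    exact (Polynomial.eval₂_at_apply (algebraMap V K) (⟨g⁻¹, h⟩ : V)).symm.trans e)
  obtain ⟨c, hc⟩ := r.dvd_coeff_zero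
  rw [Polynomial.coeff_zero_reverse, p1.leadingCoeff] at hc
  have k : (1 : K) = g⁻¹ * c := congrArg Subtype.val hc
  have : g = c := by
    rw [← mul_one g, k, mul_inv_cancel_left₀ g0]
  exact this ▸ c.2

/-- the coefficients of the minimal polynomial of an integral element are integral -/
theorem coeff_int {F : IntermediateField ℂ K} {B : Subalgebra ℂ K} (hB : B ≤ F.toSubalgebra)
    {h a : K} (hF : IsIntegral F h) (ha : a ∈ F) (a0 : a ≠ 0) (hi : IsIntegral B (a * h))
    (i : ℕ) : IsIntegral B (((minpoly F h).coeff i : K) * a ^ ((minpoly F h).natDegree - i)) := by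
  obtain ⟨p, p1, p2⟩ := hi
  let φ : B →+* F := (Subalgebra.inclusion hB).toRingHom
  have c : (algebraMap F K).comp φ = algebraMap B K := RingHom.ext fun _ => rfl
  have d : minpoly F ((⟨a, ha⟩ : F) • h) ∣ p.map φ := minpoly.dvd _ _ (by
    rw [Polynomial.aeval_def, Polynomial.eval₂_map, c]
    exact p2)
  have tf : Module.IsTorsionFree F K := DivisionSemiring.to_moduleIsTorsionFree
  rw [IsIntegrallyClosed.minpoly_smul (fun e => a0 (congrArg Subtype.val e)) hF] at d
  have d' := Polynomial.map_dvd (algebraMap F K) d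
  rw [Polynomial.map_map, c] at d'
  have := Polynomial.isIntegral_coeff_of_dvd p _ p1
    (((Polynomial.monic_scaleRoots_iff _).2 (minpoly.monic hF)).map _) d' i
  rwa [Polynomial.coeff_map, Polynomial.coeff_scaleRoots, map_mul, map_pow] at this

/-- regular along all places which contain the finite set means integral -/
theorem int_of (hK : FF K n) {ι : Type} [Finite ι] (z : ι → K) {f : K}
    (h : ∀ P : Pl K, (∀ j, z j ∈ P.ring) → f ∈ P.ring) :
    IsIntegral (Algebra.adjoin ℂ (range z)) f := by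
  by_contra c
  obtain ⟨P, h1, h2⟩ := On.val hK (k := ℂ)
    (Subalgebra.fg_def.2 ⟨_, finite_range z, rfl⟩) c
  exact h2 (h P fun j => h1 _ (Algebra.subset_adjoin ⟨j, rfl⟩))

/-- the quotients of polynomials of non positive degree -/
def dgr {y : Fin n → K} (hy : AlgebraicIndependent ℂ y) : Subalgebra ℂ K where
  carrier := {f | ∃ r s : MvPolynomial (Fin n) ℂ, s ≠ 0 ∧ r.totalDegree ≤ s.totalDegree ∧
    f * aeval y s = aeval y r}
  mul_mem' := by
    rintro f g ⟨r, s, a, b, c⟩ ⟨r', s', a', b', c'⟩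
    refine ⟨r * r', s * s', mul_ne_zero a a', ?_, ?_⟩
    · rw [totalDegree_mul_of_isDomain a a']
      exact (totalDegree_mul _ _).trans (add_le_add b b')
    · rw [map_mul, map_mul, ← c, ← c']
      ring
  add_mem' := by
    rintro f g ⟨r, s, a, b, c⟩ ⟨r', s', a', b', c'⟩
    refine ⟨r * s' + r' * s, s * s', mul_ne_zero a a', ?_, ?_⟩
    · rw [totalDegree_mul_of_isDomain a a']
      refine (totalDegree_add _ _).trans (max_le ?_ ?_)
      · exact (totalDegree_mul _ _).trans (add_le_add b le_rfl)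
      · exact (totalDegree_mul _ _).trans ((add_le_add b' le_rfl).trans (add_comm _ _).le)
    · rw [map_add, map_mul, map_mul, map_mul, ← c, ← c']
      ring
  algebraMap_mem' c := ⟨C c, 1, one_ne_zero, by simp, by simp⟩

/-- the degree of a polynomial which is integral at infinity -/
theorem deg_le {y : Fin n → K} (hy : AlgebraicIndependent ℂ y) (j : Fin n)
    {b : MvPolynomial (Fin n) ℂ} {D : ℕ} (h : IsIntegral (dgr hy) (aeval y b * (y j)⁻¹ ^ D)) :
    b.totalDegree ≤ D := by
  by_contra c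
  have b0 : b ≠ 0 := fun e => c (by simp [e])
  have y0 := hy.ne_zero j
  have b1 : aeval y b ≠ 0 := fun e => b0 (algebraicIndependent_iff.1 hy b e)
  obtain ⟨r, s, s0, k, e⟩ := mem_of_inv h ⟨X j ^ D, b, b0, by
    rw [totalDegree_X_pow]
    omega, by
    rw [map_pow, aeval_X, inv_pow]
    field_simp⟩
  have e' : b * s = r * X j ^ D := hy (by
    simp only [map_mul, map_pow, aeval_X]
    rw [← e, inv_pow]
    field_simp)
  have := congrArg totalDegree e'
  rw [totalDegree_mul_of_isDomain b0 s0] at this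
  have k' := totalDegree_mul r (X j ^ D)
  rw [totalDegree_X_pow] at k'
  omega

theorem mem_hy {y : Fin n → K} {f : K} : f ∈ hy y ↔ f = 1 ∨ ∃ j, y j = f := by
  simp [hy]

theorem sec_mem {y : Fin n → K} {δ : ℕ} {h a : K} (hh : Sec ((δ : ℝ) • mx (hy y)) h) (a0 : a ≠ 0)
    (P : Pl K) (ha : a ∈ P.ring) (hm : ∀ j, y j * a ∈ P.ring) : a ^ δ * h ∈ P.ring := by
  by_cases h0 : h = 0
  · simp [h0]
  have k := hh.resolve_left h0 P
  have m : P.mz (hy y) ≤ P.ord a := P.mz_le ⟨1, mem_hy.2 (Or.inl rfl), one_ne_zero⟩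
    fun f hf f0 => by
      rcases mem_hy.1 hf with rfl | ⟨j, rfl⟩
      · simpa using Pl.ord_nonneg_of_mem _ ha
      · have := Pl.ord_nonneg_of_mem _ (hm j)
        rw [Pl.ord_mul _ f0 a0] at this
        omega
  simp only [Pi.zero_apply, Pi.add_apply, dv_apply, Pi.smul_apply, smul_eq_mul, mx_apply] at k
  have k' : 0 ≤ P.ord h + δ * P.mz (hy y) := by exact_mod_cast k
  have := mul_le_mul_of_nonneg_left m (Int.natCast_nonneg δ)
  rw [← Pl.ord_nonneg_iff _ (mul_ne_zero (pow_ne_zero _ a0) h0),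
    Pl.ord_mul _ (pow_ne_zero _ a0) h0, Pl.ord_pow]
  omega

end Vale.Agent.P283B.Vo.Np

namespace Vale.Agent.P283B.Vo

open P287D Np

theorem np3 : NP3 := fun n K _ _ hK y δ h hi hh => by
  have hF : IsIntegral (fy y) h :=
    have := hK.fin hi
    Algebra.IsIntegral.isIntegral h
  have y0 := hi.ne_zero 0
  have ym : ∀ j, y j ∈ fy y := fun j => IntermediateField.subset_adjoin _ _ ⟨j, rfl⟩
  have i1 : IsIntegral (Algebra.adjoin ℂ (range y)) (1 * h) := int_of hK y fun P hP => by
    simpa using sec_mem hh one_ne_zero P (one_mem _) fun j => by simpa using hP j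
  have ex : ∀ i, ∃ b : MvPolynomial (Fin (n + 1)) ℂ,
      aeval y b = ((minpoly (fy y) h).coeff i : K) := fun i => by
    have k := coeff_int (IntermediateField.algebra_adjoin_le_adjoin ℂ (range y)) hF (one_mem _)
      one_ne_zero i1 i
    rw [one_pow, mul_one] at k
    refine Gm.Ir.poly_of_int hi ((minpoly (fy y) h).coeff i).2 ?_
    obtain ⟨p, p1, p2⟩ := k
    refine ⟨p.map (hi.aevalEquiv.symm : _ →+* _), p1.map _, ?_⟩
    rw [Polynomial.eval₂_map, ← p2]
    congr 1
    ext a
    obtain ⟨q, rfl⟩ := hi.aevalEquiv.surjective a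
    simp
  choose b hb using ex
  refine ⟨b, fun i => (hb i).symm, fun i => deg_le hi 0 ?_⟩
  let z : Option (Fin (n + 1)) → K := fun o => o.elim (y 0)⁻¹ fun j => y j * (y 0)⁻¹
  have i2 : IsIntegral (Algebra.adjoin ℂ (range z)) ((y 0)⁻¹ ^ δ * h) := int_of hK z fun P hP =>
    sec_mem hh (inv_ne_zero y0) P (hP none) fun j => hP (some j)
  have k := coeff_int (F := fy y) (Algebra.adjoin_le (by
    rintro _ ⟨_ | j, rfl⟩
    exacts [(fy y).inv_mem (ym 0), (fy y).mul_mem (ym j) ((fy y).inv_mem (ym 0))])) hF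
      (pow_mem (inv_mem (ym 0)) δ) (pow_ne_zero _ (inv_ne_zero y0)) i2 i
  rw [← hb, ← pow_mul, mul_comm δ] at k
  have le : Algebra.adjoin ℂ (range z) ≤ dgr hi := Algebra.adjoin_le (by
    rintro _ ⟨_ | j, rfl⟩
    · exact ⟨1, X 0, X_ne_zero _, by simp, by simp [z, y0]⟩
    · exact ⟨X j, X 0, X_ne_zero _, by simp, by simp [z, y0]⟩)
  obtain ⟨p, p1, p2⟩ := k
  refine ⟨p.map (Subalgebra.inclusion le).toRingHom, p1.map _, ?_⟩
  rw [Polynomial.eval₂_map]
  exact p2

end Vale.Agent.P283B.Vo
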