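import Vale.Agent.P283B.VOL.Core
import Vale.Agent.P283B.VOL.Np

/-!
# P283B, block VOL: the places over a monomial valuation (`MW`)
-/

set_option linter.unusedVariables false
set_option linter.unusedSectionVars false

open Set Function MvPolynomial
open Vale.Agent.P297Z

noncomputable section

namespace Vale.Agent.P283B.Vo

open P287D P287D.Cb

variable {K : Type} [Field K] [Algebra ℂ K] {n : ℕ} {P : Pl K} {L : IntermediateField ℂ K}

theorem mem_of_int {R : Type} [CommRing R] [Algebra R K] (h : ∀ r, algebraMap R K r ∈ P.ring)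
    {f : K} (hf : IsIntegral R f) : f ∈ P.ring := by
  obtain ⟨p, p1, p2⟩ := hf
  obtain ⟨c, rfl⟩ := IsIntegrallyClosed.isIntegral_iff.1 (show IsIntegral P.ring f from
    ⟨p.map ((algebraMap R K).codRestrict P.ring h), p1.map _, by
      rw [Polynomial.eval₂_map]
      exact p2⟩)
  exact c.2

theorem hor_ord (hP : Hor L P) {f : K} (hf : f ∈ L) : P.ord f = 0 :=
  Pl.ord_unit _ (hP f hf) (hP _ (inv_mem hf))

theorem ada_of {z : Fin n → K} (hz : AlgebraicIndependent ℂ z) (hL : ∀ a, z a ∈ L)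
    (hP : Hor L P) : Ada P P.t z := by
  refine ⟨P.ord_t, fun a => hP _ (hL a), algebraicIndependent_iff.2 fun p hp => ?_⟩
  have m : aeval z p ∈ L := (Algebra.adjoin_le (S := L.toSubalgebra) (range_subset_iff.2 hL))
    (by rw [Algebra.adjoin_range_eq_range_aeval]; exact ⟨p, rfl⟩)
  rw [← rd_aeval fun a => hP _ (hL a), rd_eq_zero (hP _ m), mx_iff, hor_ord hP m] at hp
  exact algebraicIndependent_iff.1 hz p (hp.resolve_right (lt_irrefl _))

theorem al_cons (hK : FF K (n + 1)) {z : Fin n → K} (a : Ada P P.t z) {t : K}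
    (ht : P.ord t ≠ 0) : al (Fin.cons t z : Fin (n + 1) → K) P = 0 := by
  have : CharZero K := charZero_of_injective_algebraMap (algebraMap ℂ K).injective
  obtain ⟨D, h⟩ := a.ad hK
  have t0 : t ≠ 0 := fun e => ht (by simp [e])
  obtain ⟨u, u1, u2, e⟩ := ld_eq (dr_of (D 0)) P t0
  have d : D 0 P.t = 1 := by simpa using h.fr.dual 0 0
  have k : ¬ Mx P (P.t * (D 0 t / t)) := fun m => by
    have m1 := (m.sub (mx_t (mul_mem u2 (h.pre 0 u u1)))).mul (int_inv_mem P (P.ord t))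
    rw [e, d, mul_add, add_sub_cancel_left, mul_left_comm P.t, mul_one_div_cancel P.t_ne, mul_one,
      inv_mul_cancel₀ (Int.cast_ne_zero.2 ht)] at m1
    exact not_mx_one m1
  rw [mx_iff, not_or] at k
  have d0 : D 0 t ≠ 0 := fun e => k.1 (by simp [e])
  obtain ⟨k1, k2⟩ := U.kap_upd h.fr d0
  rw [Fin.update_cons_zero] at k1 k2
  refine le_antisymm ?_ (al_nonneg hK k1 P)
  have k3 := k.2
  rw [Pl.ord_mul _ P.t_ne (div_ne_zero d0 t0), Pl.ord_div _ d0 t0, P.ord_t, not_lt] at k3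
  have k4 := Int.cast_le (R := ℝ).2 k3
  rw [al, k2, Pi.add_apply, a.kap hK, dv_apply, Fin.sum_univ_succ]
  simp only [Fin.cons_zero, Fin.cons_succ, (a.ord_u _).2]
  push_cast at k4 ⊢
  simp only [Finset.sum_const_zero]
  linarith

theorem al_hor (hK : FF K (n + 1)) {u : Fin (n + 1) → K} (hu : AlgebraicIndependent ℂ u)
    (o : Fin (n + 1)) (hL : ∀ a, a ≠ o → u a ∈ L) (hP : Hor L P) (ht : P.ord (u o) ≠ 0) :
    al u P = 0 := by
  have k := al_cons hK (ada_of (hu.comp _ (Fin.succAbove_right_injective (p := o)))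
    (fun a => hL _ (o.succAbove_ne a)) hP) ht
  have e : (Fin.cons (u o) (u ∘ o.succAbove) : Fin (n + 1) → K) =
      u ∘ (finSuccEquiv n).trans (finSuccEquiv' o).symm := funext fun i => by
    refine Fin.cases ?_ (fun i => ?_) i <;> simp
  rw [e, al, kap_perm hK] at k
  rw [al, ← k, ← Equiv.sum_comp ((finSuccEquiv n).trans (finSuccEquiv' o).symm)]
  rfl

/-- two terms of a vanishing sum have the same order -/
theorem two_terms {s : Finset ℕ} {a : ℕ → K} (h : ∑ i ∈ s, a i = 0) {m : ℕ} (hm : m ∈ s)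
    (m0 : a m ≠ 0) : ∃ i ∈ s, ∃ j ∈ s, i ≠ j ∧ a i ≠ 0 ∧ a j ≠ 0 ∧ P.ord (a i) = P.ord (a j) := by
  classical
  obtain ⟨i, hi, mn⟩ := (s.filter fun i => a i ≠ 0).exists_min_image (fun i => P.ord (a i))
    ⟨m, Finset.mem_filter.2 ⟨hm, m0⟩⟩
  obtain ⟨i1, i2⟩ := Finset.mem_filter.1 hi
  by_contra! c
  rw [← Finset.add_sum_erase _ _ i1, add_eq_zero_iff_eq_neg] at h
  have k : a i ∈ P.sub (-(P.ord (a i) + 1)) := by
    rw [h]
    refine neg_mem (Submodule.sum_mem _ fun j hj => or_iff_not_imp_left.2 fun j0 => ?_)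
    obtain ⟨j1, j2⟩ := Finset.mem_erase.1 hj
    have b := (mn j (Finset.mem_filter.2 ⟨j2, j0⟩)).lt_of_ne (c i i1 j j2 j1.symm i2 j0)
    have b' := Int.cast_le (R := ℝ).2 (Int.add_one_le_of_lt b)
    rw [← h]
    push_cast at b'
    linarith
  linarith [k.resolve_left i2]

section mon

variable {y : Fin (n + 1) → K} {w : Fin (n + 1) → ℕ} {e : ℝ}

theorem ord_fy (hK : FF K (n + 1)) (hi : AlgebraicIndependent ℂ y) (h0 : al y P = 0)
    (e0 : 0 < e) (ho : ∀ j, (P.ord (y j) : ℝ) = e * w j) {f : K} (hf : f ∈ fy y) :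
    ∃ k : ℤ, (P.ord f : ℝ) = e * k := by
  have a : ∀ p : MvPolynomial (Fin (n + 1)) ℂ, ∃ k : ℤ, (P.ord (aeval y p) : ℝ) = e * k := fun p => by
    by_cases p0 : aeval y p = 0
    · exact ⟨0, by simp [p0]⟩
    obtain ⟨u, hu, k⟩ := low' hi.ne_zero P p0
    have k' := ri' hK hi P le_rfl hu
    rw [h0, mul_zero, add_zero] at k'
    refine ⟨∑ j, w j * u j, (le_antisymm k' k).trans ?_⟩
    push_cast
    simp only [ho, mul_assoc, Finset.mul_sum]
  obtain ⟨r, hr, s, hs, rfl⟩ := IntermediateField.mem_adjoin_iff_div.1 hf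
  rw [Algebra.adjoin_range_eq_range_aeval] at hr hs
  obtain ⟨p, rfl⟩ := hr
  obtain ⟨q, rfl⟩ := hs
  obtain ⟨k, hk⟩ := a p
  obtain ⟨l, hl⟩ := a q
  change ∃ k : ℤ, (P.ord (aeval y p / aeval y q) : ℝ) = e * k
  by_cases p0 : aeval y p = 0
  · exact ⟨0, by simp [p0]⟩
  by_cases q0 : aeval y q = 0
  · exact ⟨0, by simp [q0]⟩
  refine ⟨k - l, ?_⟩
  rw [Pl.ord_div _ p0 q0]
  push_cast
  rw [hk, hl, mul_sub]

theorem ram_le (hK : FF K (n + 1)) (hi : AlgebraicIndependent ℂ y) (h0 : al y P = 0)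
    (e0 : 0 < e) (ho : ∀ j, (P.ord (y j) : ℝ) = e * w j) : e ≤ Module.finrank (fy y) K := by
  have s := minpoly.aeval (fy y) P.t
  rw [Polynomial.aeval_eq_sum_range] at s
  obtain ⟨i, hi', j, hj, ne, i0, j0, k⟩ := two_terms (P := P) s (Finset.self_mem_range_succ _) (by
    rw [(minpoly.monic (int_fy hK hi P.t)).coeff_natDegree, one_smul]
    exact pow_ne_zero _ P.t_ne)
  have o : ∀ (c : fy y) (i : ℕ), c • P.t ^ i ≠ 0 → ∃ k : ℤ, (P.ord (c • P.t ^ i) : ℝ) = e * k + i :=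
    fun c i h => by
    obtain ⟨k, hk⟩ := ord_fy hK hi h0 e0 ho c.2
    rw [Algebra.smul_def] at h ⊢
    refine ⟨k, ?_⟩
    rw [Pl.ord_mul _ (left_ne_zero_of_mul h) (right_ne_zero_of_mul h), Pl.ord_pow, P.ord_t, ← hk]
    push_cast
    rw [mul_one]
    rfl
  obtain ⟨a, ha⟩ := o _ _ i0
  obtain ⟨b, hb⟩ := o _ _ j0
  rw [k, hb] at ha
  have m : ((minpoly (fy y) P.t).natDegree : ℝ) ≤ Module.finrank (fy y) K := by
    exact_mod_cast dg_le hK hi P.t
  have i1 : (i : ℝ) ≤ (minpoly (fy y) P.t).natDegree := by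
    exact_mod_cast Nat.lt_succ_iff.1 (Finset.mem_range.1 hi')
  have j1 : (j : ℝ) ≤ (minpoly (fy y) P.t).natDegree := by
    exact_mod_cast Nat.lt_succ_iff.1 (Finset.mem_range.1 hj)
  have i2 : (0 : ℝ) ≤ i := i.cast_nonneg
  have j2 : (0 : ℝ) ≤ j := j.cast_nonneg
  rcases lt_trichotomy a b with c | rfl | c
  · have := Int.cast_le (R := ℝ).2 (Int.add_one_le_of_lt c)
    push_cast at this
    nlinarith
  · exact absurd (by exact_mod_cast add_left_cancel ha) ne.symm
  · have := Int.cast_le (R := ℝ).2 (Int.add_one_le_of_lt c)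
    push_cast at this
    nlinarith

end mon

theorem mw : MW := fun n K _ _ hK y w hi hw => by
  obtain ⟨o, ho⟩ : ∃ o, w o ≠ 0 := Function.ne_iff.1 hw
  obtain ⟨ui, ua⟩ := U.mon_kap hK hi ho
  have uo : U.mon y o w o = y o := if_pos rfl
  have un : ∀ a, a ≠ o → U.mon y o w a = y a ^ w o / y o ^ w a := fun a h => if_neg h
  have y0 := hi.ne_zero
  have ym : ∀ j, y j ∈ fy y := fun j => IntermediateField.subset_adjoin _ _ ⟨j, rfl⟩
  have w0 : (0 : ℝ) < w o := by exact_mod_cast Nat.pos_of_ne_zero ho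
  set L := IntermediateField.adjoin ℂ (U.mon y o w '' {o}ᶜ) with hL
  have um : ∀ a, a ≠ o → U.mon y o w a ∈ L := fun a h =>
    IntermediateField.subset_adjoin _ _ ⟨a, h, rfl⟩
  have oy : ∀ P : Pl K, Hor L P → ∀ j, (P.ord (y j) : ℝ) = P.ord (y o) / w o * w j :=
    fun P hP j => by
    by_cases h : j = o
    · rw [h, div_mul_cancel₀ _ w0.ne']
    have k := hor_ord hP (um j h)
    rw [un j h, Pl.ord_div _ (pow_ne_zero _ (y0 j)) (pow_ne_zero _ (y0 o)), Pl.ord_pow, Pl.ord_pow,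
      sub_eq_zero] at k
    have k' := congrArg (Int.cast (R := ℝ)) k
    push_cast at k'
    field_simp
    linarith
  have a0 : ∀ P : Pl K, Hor L P → 0 < P.ord (y o) → al y P = 0 := fun P hP h => by
    have k := al_hor hK ui o um hP (uo ▸ h.ne')
    have k' := congrFun ua P
    simp only [Pi.sub_apply, Finset.sum_apply, dv_apply] at k'
    rw [al] at k ⊢
    linarith
  have val : ∀ f : K, (∀ P : Pl K, Hor L P → y o ∈ P.ring → f ∈ P.ring) →
      IsIntegral ((Algebra.adjoin L {y o}).restrictScalars ℂ) f := fun f h => by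
    by_contra c
    obtain ⟨P, h1, h2⟩ := On.val hK (k := L) (B := Algebra.adjoin L {y o})
      (Subalgebra.fg_def.2 ⟨_, finite_singleton _, rfl⟩) c
    exact h2 (h P (fun a z => h1 a (Subalgebra.algebraMap_mem _ (⟨a, z⟩ : L)))
      (h1 _ (Algebra.subset_adjoin rfl)))
  have sub : ∀ R : Subring K, (∀ a ∈ L, a ∈ R) → y o ∈ R →
      ∀ a ∈ Algebra.adjoin L {y o}, a ∈ R := fun R h1 h2 a ha => by
    induction ha using Algebra.adjoin_induction with
    | mem x hx => exact (mem_singleton_iff.1 hx) ▸ h2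
    | algebraMap r => exact h1 _ r.2
    | add x z _ _ a b => exact add_mem a b
    | mul x z _ _ a b => exact mul_mem a b
  have Lle : L ≤ fy y := IntermediateField.adjoin_le_iff.2 (by
    rintro _ ⟨a, h, rfl⟩
    rw [un a h]
    exact div_mem (pow_mem (ym a) _) (pow_mem (ym o) _))
  have Ble : (Algebra.adjoin L {y o}).restrictScalars ℂ ≤ (fy y).toSubalgebra := fun a ha =>
    sub (fy y).toSubfield.toSubring (fun a h => Lle h) (ym o) a ha
  obtain ⟨Q, Q1, Q2⟩ : ∃ Q : Pl K, Hor L Q ∧ 0 < Q.ord (y o) := by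
    have tr : Transcendental L (y o)⁻¹ := fun z => (IntermediateField.transcendental_adjoin_iff.2
      (ui.transcendental_adjoin (s := {o}ᶜ) (i := o) (by simp))) (uo ▸ IsAlgebraic.inv_iff.1 z)
    obtain ⟨Q, Q1, Q2⟩ := On.hor_pole hK tr
    rw [← Pl.ord_nonneg_iff _ (inv_ne_zero (y0 o)), Pl.ord_inv] at Q2
    exact ⟨Q, Q1, by omega⟩
  refine ⟨{P | Hor L P ∧ 0 < P.ord (y o)}, fun P => P.ord (y o) / w o,
    (On.hor_fin hK (On.trdeg_one (hK.basis ui) o) (y o)).subset fun P h => ⟨h.1, h.2.ne'⟩,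
    fun P h => ?_, fun F b c m hc i u hu => ?_⟩
  · have e0 : (0 : ℝ) < P.ord (y o) / w o := div_pos (by exact_mod_cast h.2) w0
    exact ⟨a0 P h.1 h.2, e0, ram_le hK hi (a0 P h.1 h.2) e0 (oy P h.1), oy P h.1⟩
  have r0 : (0 : ℝ) ≤ ∑ j, (w j : ℝ) * u j := by positivity
  have ws : (w o : ℝ) ≤ ∑ j, (w j : ℝ) :=
    Finset.single_le_sum (f := fun j => (w j : ℝ)) (fun j _ => Nat.cast_nonneg _) (Finset.mem_univ o)
  by_cases c0 : c ≤ 0
  · exact (mul_nonpos_of_nonneg_of_nonpos (Nat.cast_nonneg _) (by linarith)).trans r0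
  have b0 : aeval y (b i) ≠ 0 := fun z =>
    (mem_support_iff.1 hu) (by rw [algebraicIndependent_iff.1 hi _ z, coeff_zero])
  obtain ⟨a, a1, a2⟩ : ∃ a : ℕ, a * (w o : ℝ) ≤ c ∧ c ≤ (a + 1) * w o :=
    ⟨⌊c / w o⌋₊, (le_div_iff₀ w0).1 (Nat.floor_le (div_nonneg (not_le.1 c0).le w0.le)),
      (div_le_iff₀ w0).1 (Nat.lt_floor_add_one _).le⟩
  have t0 := pow_ne_zero a (inv_ne_zero (y0 o))
  have hF := int_fy hK hi F
  have i1 := val ((y o)⁻¹ ^ a * F) fun P hP h => by
    by_cases F0 : F = 0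
    · simp [F0]
    have k : (0 : ℝ) ≤ P.ord (y o) := by exact_mod_cast Pl.ord_nonneg_of_mem _ h
    refine mem_ord ?_
    rw [Pl.ord_mul _ t0 F0, Pl.ord_pow, Pl.ord_inv]
    rcases (Pl.ord_nonneg_of_mem _ h).eq_or_lt with z | z
    · rw [← z, neg_zero, mul_zero, zero_add]
      refine Pl.ord_nonneg_of_mem _ (mem_of_int (R := P.ring) (fun r => r.2) ?_)
      have m' : ∀ j, y j ∈ P.ring := fun j => mem_ord (by
        have := oy P hP j
        rw [← z, Int.cast_zero, zero_div, zero_mul, Int.cast_eq_zero] at this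
        exact this.ge)
      refine ⟨∑ i ∈ Finset.range (dg y F), Polynomial.monomial i ⟨_, U.aeval_mem m' (b i)⟩ +
        Polynomial.X ^ dg y F, Polynomial.Monic.add_of_right (Polynomial.monic_X_pow _) ?_, ?_⟩
      · rw [Polynomial.degree_X_pow]
        exact (Polynomial.degree_sum_le _ _).trans_lt ((Finset.sup_lt_iff (WithBot.bot_lt_coe _)).2
          fun i hi => (Polynomial.degree_monomial_le _ _).trans_lt
            (by exact_mod_cast Finset.mem_range.1 hi))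
      · have s := m.sum
        rw [Finset.sum_range_succ, m.top hF, one_mul] at s
        simpa [Polynomial.eval₂_finsetSum] using s
    · have k1 := hc P ⟨hP, z⟩
      have k2 := mul_le_mul_of_nonneg_right a1 (div_nonneg k w0.le)
      rw [mul_assoc, mul_div_cancel₀ _ w0.ne'] at k2
      have : (a : ℝ) * P.ord (y o) ≤ P.ord F := k2.trans k1
      have : (a : ℤ) * P.ord (y o) ≤ P.ord F := by exact_mod_cast this
      linarith
  have i2 := mem_of_int (P := Q)
    (fun r => sub Q.ring.toSubring Q1 (mem_ord Q2.le) r.1 r.2)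
    (Np.coeff_int Ble hF (pow_mem (inv_mem (ym o)) a) t0 i1 i)
  rw [m i] at i2
  have k := Pl.ord_nonneg_of_mem _ i2
  rw [Pl.ord_mul _ b0 (pow_ne_zero _ t0), Pl.ord_pow, Pl.ord_pow, Pl.ord_inv] at k
  have k1 := Int.cast_le (R := ℝ).2 k
  have k2 := ri' hK hi Q le_rfl hu
  have e0 : (0 : ℝ) < Q.ord (y o) / w o := div_pos (by exact_mod_cast Q2) w0
  have k3 := oy Q Q1 o
  rw [a0 Q Q1 Q2, mul_zero, add_zero, Finset.sum_congr rfl fun j _ => by
    rw [oy Q Q1 j, mul_assoc], ← Finset.mul_sum] at k2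
  push_cast at k1
  change (((minpoly (fy y) F).natDegree - i : ℕ) : ℝ) * _ ≤ _
  have d0 : (0 : ℝ) ≤ ((minpoly (fy y) F).natDegree - i : ℕ) := Nat.cast_nonneg _
  generalize (((minpoly (fy y) F).natDegree - i : ℕ) : ℝ) = d at *
  generalize (Q.ord (y o) : ℝ) / w o = ρ at *
  rw [k3] at k1
  refine (mul_le_mul_of_nonneg_left (show c - ∑ j, (w j : ℝ) ≤ a * w o by linarith) d0).trans
    (le_of_mul_le_mul_left ?_ e0)
  linarith

end Vale.Agent.P283B.Vo
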