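import Vale.Agent.P283B.VOL.Al
import Vale.Agent.P283B.VOL.Mw
import Vale.Agent.P283B.VOL.Bm
import Vale.Agent.P283B.VOL.Ch
import Vale.Agent.P283B.MONO.Va2
import Vale.Agent.P283B.U.All
import Vale.Agent.P287D.On.Cen

/-!
# P283B, block VOL: `CORE` and the steps which need nothing else
-/

noncomputable section

namespace Vale.Agent.P283B.Vo

open P287D

theorem rat : RAT := fun _ _ _ _ hK _ _ _ a b c d e f => On.rep_ind hK a b c d e f

theorem core : CORE :=
  core_of rat np3 mw Mono.dir (sz_of Api.mod Api.int Api.vol Api.neg) (bm U.ua ch)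

theorem salpha : SALPHA := salpha_of Api.mod Api.int core

theorem slcf : SLCF := Vk.slcf

theorem sklt : SKLT := Vk.sklt Api.mod Api.neg bert

end Vale.Agent.P283B.Vo
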