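import Vale.Agent.P283B.VOL.Sa
import Vale.Agent.P283B.Tool.Mmp
import Vale.Agent.P283B.U.All
import Vale.Agent.P283B.EB.Deg

/-!
# P283B, block VOL: `SSA` with the rows of the library
-/

open Set

noncomputable section

namespace Vale.Agent.P283B.Vs

open P287D

theorem ko : KO := fun _ _ _ _ hK _ a _ b k => Pr.klt_open hK a b k

theorem sr : SR := fun _ _ _ _ _ _ a b => Rl.smp_carQ a b

theorem ct : CT := fun n K _ _ hK Y Γ T₀ sY bY k n₁ b₁ hT => by
  classical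
  have cΓ : Γ ∈ Car K := by simpa using neg_mem n₁.car
  obtain ⟨s, κ, T, h, l, a1, a2, a3, a4, a5⟩ :=
    Tl.exists_lsx hK sY bY hT (finite_singleton Γ) (by simp [cΓ])
  refine ⟨mx s, T, l.smp, l.big, a4, a1, l.on, a5, fun T' t bd => ?_⟩
  choose r r1 r2 using fun P => exists_rat_btwn
    (max_lt (lt_add_one (dsc (n + 1) Γ P)) (neg_lt_iff_pos_add.1 (k P)))
  obtain ⟨dE, eE⟩ := (l.mono t).hull_sum fun P => r P
  have r0 : ∀ P, (0 : ℝ) < r P := fun P => (le_max_right _ _).trans_lt (r1 P)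
  have qE : CarQ (∑ P ∈ T', (r P : ℝ) • h P) :=
    CarQ.sum _ fun P _ => (CarZ.carQ (l.hz P)).qsmul _
  have E0 : 0 ≤ ∑ P ∈ T', (r P : ℝ) • h P :=
    Finset.sum_nonneg fun P p => smul_nonneg (r0 P).le (l.nn (l.on P (t p)))
  generalize ∑ P ∈ T', (r P : ℝ) • h P = E at dE eE qE E0
  have q : E - (Γ + E) = -Γ := by abel
  obtain ⟨L, N, z, -, b1, b2, b3, -, b5⟩ := Tl.minq hK l.smp l.big l.qf qE
    ⟨dE, Γ + E, add_mem cΓ dE.car, fun Q => by
      have := l.gt (Q := Q) (Γ := Γ + E) (sub_sub κ Γ E ▸ (a2.sub (a3 Γ rfl)).sub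
        ⟨dE, fun P o p => by rw [eE P o, if_neg (mt (@t P) p)]⟩) le_rfl one_pos fun P p _ => by
          rw [Pr.dsc_add, eE P (l.on P p)]
          split_ifs
          · linarith [r2 P]
          · linarith [k P]
      linarith, fun P o => by
      rw [Pr.dsc_add, eE P o]
      split_ifs with w
      · linarith [(le_max_left _ _).trans_lt (r1 P)]
      · linarith [bd P o w], q ▸ n₁, q ▸ b₁⟩ (Eff.of_nonneg E0).psef
  refine ⟨E, N, L, dE.car, z.nn, z.fix E (.refl E0), z.smp, fun P o => ?_, b1, b2, b3, b5⟩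
  rw [eE P o]
  split_ifs with w
  · exact iff_of_true (r0 P).ne' w
  · exact iff_of_false (fun e => e rfl) w

/-- **SSA** -/
theorem ssa : SSA :=
  ssa_of In.hy Api.ffs Api.mod res' Api.vol Api.neg ko sr ct extr ftm0 ftm1 (Eb.deg U.hb) U.ua

end Vale.Agent.P283B.Vs
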