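import Vale.Agent.P283B.Spec
import Vale.Agent.P287D.Cb.Kap
import Vale.Agent.P287D.Va.Fld

/-!
# P283B, block VOL: lc and klt complements of log Fano pairs (`SLCF`, `SKLT`)
-/

open Set
open Vale.Agent.P285N.Brep (jac Fr)
open Vale.Agent.P297Z

noncomputable section

namespace Vale.Agent.P283B.Vk

open P287D

variable {K : Type} [Field K] [Algebra ℂ K] {n d : ℕ} {β Λ Γ : BD K}

/-- a transcendence basis of quotients with the same denominator -/
theorem basis_of (hK : FF K (n + 1)) {A : K → Prop} (h : ∀ x : K, IsAlgebraic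
    (IntermediateField.adjoin ℂ {x | ∃ f g, A f ∧ A g ∧ x = f / g}) x) :
    ∃ (f₀ : K) (f : Fin (n + 1) → K), f₀ ≠ 0 ∧ A f₀ ∧ (∀ i, A (f i)) ∧
      AlgebraicIndependent ℂ fun i => f i / f₀ := by
  have key : ∀ S : Set K, Algebra.IsAlgebraic (IntermediateField.adjoin ℂ S) K →
      ∃ y : Fin (n + 1) → K, (∀ i, y i ∈ S) ∧ AlgebraicIndependent ℂ y := fun S hS => by
    have := IntermediateField.isAlgebraic_adjoin_iff_top.1 hS
    obtain ⟨t, a, b⟩ := exists_isTranscendenceBasis_subset (R := ℂ) S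
    have c := b.cardinalMk_eq_trdeg
    rw [hK.trdeg, ← Cardinal.mk_fin, Cardinal.eq] at c
    obtain ⟨e⟩ := c
    exact ⟨fun i => e.symm i, fun i => a (e.symm i).2, b.1.comp _ e.symm.injective⟩
  obtain ⟨y, hy, hi⟩ := key _ ⟨h⟩
  obtain ⟨f₁, f₀, -, s₀, e⟩ := hy 0
  have h0 : f₀ ≠ 0 := fun k => hi.ne_zero 0 (by rw [e, k, div_zero])
  have le : IntermediateField.adjoin ℂ {x | ∃ f g, A f ∧ A g ∧ x = f / g} ≤
      IntermediateField.adjoin ℂ {x | ∃ f, A f ∧ x = f / f₀} := by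
    refine IntermediateField.adjoin_le_iff.2 ?_
    rintro _ ⟨f, g, a, b, rfl⟩
    rw [← div_div_div_cancel_right₀ h0]
    exact div_mem (IntermediateField.subset_adjoin _ _ ⟨f, a, rfl⟩)
      (IntermediateField.subset_adjoin _ _ ⟨g, b, rfl⟩)
  obtain ⟨z, hz, hj⟩ := key _ ⟨fun x => (h x).ringHom_of_comp_eq
    (IntermediateField.inclusion le).toRingHom (RingHom.id K)
    (IntermediateField.inclusion_injective _) rfl⟩
  choose f hf hf' using hz
  exact ⟨f₀, f, h0, s₀, hf, (funext hf' : z = _) ▸ hj⟩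

theorem bir_alg (h : Bir β) (x : K) : IsAlgebraic
    (IntermediateField.adjoin ℂ {x | ∃ f g, Sec β f ∧ Sec β g ∧ x = f / g}) x :=
  isAlgebraic_algebraMap (⟨x, h.ge trivial⟩ :
    IntermediateField.adjoin ℂ {x | ∃ f g, Sec β f ∧ Sec β g ∧ x = f / g})

theorem bir_ne (hK : FF K (n + 1)) (h : Bir β) : ∃ f, f ≠ 0 ∧ Sec β f :=
  let ⟨f, _, a, b, _⟩ := basis_of hK (bir_alg h); ⟨f, a, b⟩

/-- the poles of the form `dy` for coordinates which are quotients -/
theorem kap_div (hK : FF K d) {f₀ : K} {f : Fin d → K} (h0 : f₀ ≠ 0)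
    (hi : AlgebraicIndependent ℂ fun i => f i / f₀) (P : Pl K) {a : K} (ha : a ≠ 0)
    (h₀ : f₀ / a ∈ P.ring) (h : ∀ i, f i / a ∈ P.ring) :
    0 ≤ kap (fun i => f i / f₀) P + (d + 1) * (P.ord f₀ - P.ord a) := by
  obtain ⟨t, D, A⟩ := Cb.exists_ad hK P
  have g0 : f₀ / a ≠ 0 := div_ne_zero h0 ha
  have j0 := (Cb.jac_ne_iff A.fr _).2 hi
  have e : (f₀ / a) ^ (d + 1) * jac D (fun i => f i / f₀) = (Matrix.fromBlocks
      (Matrix.of fun _ _ : Unit => f₀ / a) (Matrix.of fun _ j => f j / a)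
      (Matrix.of fun i _ => D i (f₀ / a)) (Matrix.of fun i j => D i (f j / a))).det := by
    have e₁ : ∀ j, f j / a = f₀ / a * (f j / f₀) := fun j => by field_simp
    have : Matrix.fromBlocks (Matrix.of fun _ _ : Unit => f₀ / a) (Matrix.of fun _ j => f j / a)
        (Matrix.of fun i _ => D i (f₀ / a)) (Matrix.of fun i j => D i (f j / a)) =
        Matrix.fromBlocks (Matrix.of fun _ _ => f₀ / a) 0 (Matrix.of fun i _ => D i (f₀ / a))
          ((f₀ / a) • Matrix.of fun i j => D i (f j / f₀)) *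
        Matrix.fromBlocks 1 (Matrix.of fun _ j => f j / f₀) 0 1 := by
      rw [Matrix.fromBlocks_multiply]
      congr 1
      · simp
      · ext i j
        simp [Matrix.mul_apply, e₁ j]
      · simp
      · ext i j
        simp only [Matrix.mul_one, Matrix.add_apply, Matrix.mul_apply, Matrix.of_apply,
          Matrix.smul_apply, Finset.univ_unique, Finset.sum_singleton, smul_eq_mul]
        rw [e₁ j, Derivation.leibniz, smul_eq_mul, smul_eq_mul]
        ring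
    rw [this, Matrix.det_mul, Matrix.det_fromBlocks_zero₁₂, Matrix.det_fromBlocks_zero₂₁,
      Matrix.det_smul, Matrix.det_unique, Matrix.det_one, Matrix.det_one, Fintype.card_fin]
    simp only [Matrix.of_apply, jac]
    ring
  have k := Pl.ord_nonneg_of_mem P.toPlace (e ▸ Cb.det_mem P.ring (by
    rintro (i | i) (j | j)
    exacts [h₀, h j, A.pre i _ h₀, A.pre i _ (h j)]))
  rw [Pl.ord_mul _ (pow_ne_zero _ g0) j0, Pl.ord_pow, Pl.ord_div _ h0 ha] at k
  have k' := Int.cast_le (R := ℝ).2 k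
  push_cast at k'
  rw [Cb.kap_eq A]
  linarith

/-- **FORM**: a canonical form whose poles are bounded by a generically finite system -/
theorem form_of (hK : FF K (n + 1)) {A : K → Prop} (h : ∀ x : K, IsAlgebraic
    (IntermediateField.adjoin ℂ {x | ∃ f g, A f ∧ A g ∧ x = f / g}) x) :
    ∃ j : K, j ≠ 0 ∧ ∀ P : Pl K, ∃ f, f ≠ 0 ∧ A f ∧
      ((n + 2) * P.ord f : ℝ) ≤ cn K (n + 1) P + P.ord j := by
  classical
  obtain ⟨f₀, f, h0, s₀, s, hi⟩ := basis_of hK h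
  obtain ⟨j, j0, e⟩ := Cb.kap_cn hK hi
  refine ⟨j * f₀ ^ (n + 2), mul_ne_zero j0 (pow_ne_zero _ h0), fun P => ?_⟩
  obtain ⟨a, ha, a0, ea⟩ := P.exists_mz (s := insert f₀ (Finset.univ.image f))
    ⟨f₀, Finset.mem_insert_self _ _, h0⟩
  have m : ∀ g ∈ insert f₀ (Finset.univ.image f), g / a ∈ P.ring := fun g hg => by
    by_cases g0 : g = 0
    · simp [g0]
    have := P.le_mz hg g0
    rw [← Pl.ord_nonneg_iff _ (div_ne_zero g0 a0), Pl.ord_div _ g0 a0]
    omega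
  refine ⟨a, a0, ?_, ?_⟩
  · rcases Finset.mem_insert.1 ha with rfl | ha
    · exact s₀
    · obtain ⟨i, -, rfl⟩ := Finset.mem_image.1 ha
      exact s i
  · have := kap_div hK h0 hi P a0 (m _ (Finset.mem_insert_self _ _)) fun i =>
      m _ (Finset.mem_insert_of_mem (Finset.mem_image_of_mem f (Finset.mem_univ i)))
    rw [e, Pi.add_apply, dv_apply] at this
    rw [Pl.ord_mul _ j0 (pow_ne_zero _ h0), Pl.ord_pow]
    push_cast at this ⊢
    linarith

/-- **KM**; the hypothesis is `Big (mx s)` by `big_mx_iff` -/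
theorem km (hK : FF K (n + 1)) {s : Finset K} (h : ∀ x : K, IsAlgebraic (rts s) x) :
    ∃ j : K, j ≠ 0 ∧ 0 ≤ dv j + cn K (n + 1) + (n + 2 : ℝ) • mx s := by
  obtain ⟨j, j0, hj⟩ := form_of hK (A := (· ∈ s)) (by
    have e : {x | ∃ f g, f ∈ s ∧ g ∈ s ∧ x = f / g} = {a : K | ∃ f ∈ s, ∃ g ∈ s, a = f / g} := by
      simp only [exists_and_left]
    rw [e]
    exact h)
  refine ⟨j, j0, fun P => ?_⟩
  obtain ⟨f, f0, a, b⟩ := hj P
  have c := Int.cast_le (R := ℝ).2 (P.le_mz a f0)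
  have := mul_le_mul_of_nonneg_left c (by positivity : (0 : ℝ) ≤ n + 2)
  simp only [Pi.zero_apply, Pi.add_apply, dv_apply, Pi.smul_apply, smul_eq_mul, mx_apply]
  push_cast at this
  linarith

theorem sc_iff {N : ℕ} {g : K} : Sc N Γ All g ↔ g ≠ 0 ∧ Sec ((N : ℝ) • -Γ) g := by
  refine and_congr_right fun g0 => ⟨fun h => Or.inr fun P => ?_, fun h P _ => ?_⟩
  · have := h P trivial
    simp only [Pi.zero_apply, Pi.add_apply, dv_apply, Pi.smul_apply, Pi.neg_apply, smul_eq_mul]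
    linarith
  · have := h.resolve_left g0 P
    simp only [Pi.zero_apply, Pi.add_apply, dv_apply, Pi.smul_apply, Pi.neg_apply,
      smul_eq_mul] at this
    linarith

theorem sc_pow {N : ℕ} {U : Pl K → Prop} {g : K} (h : Sc N Γ U g) (k : ℕ) :
    Sc (k * N) Γ U (g ^ k) := ⟨pow_ne_zero _ h.1, fun P hP => by
  rw [Pl.ord_pow]
  push_cast
  rw [mul_assoc]
  exact mul_le_mul_of_nonneg_left (h.2 P hP) (Nat.cast_nonneg k)⟩

theorem lcc_pow {N : ℕ} {U : Pl K → Prop} {g : K} (h : LcC n N Γ U g) (k : ℕ) :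
    LcC n (k * N) Γ U (g ^ k) := ⟨sc_pow h.1 k, fun P hP => by
  rw [Pl.ord_pow]
  push_cast
  rw [mul_assoc]
  exact mul_le_mul_of_nonneg_left (h.2 P hP) (Nat.cast_nonneg k)⟩

theorem ld_eq (P : Pl K) : ld d Γ P = cn K d P - Γ P + 1 := rfl

/-- `q Γ` is integral on the variety -/
theorem zon {q : ℕ} (hq : 0 < q) (h : Cf n Λ Γ (Frq q) All) : ZOn n Λ ((q : ℝ) • -Γ) :=
  fun P hP => by
  obtain ⟨j, hj⟩ := h P hP trivial
  obtain ⟨z, hz⟩ := Cb.cn_int (n := n + 1) P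
  have q0 : (q : ℝ) ≠ 0 := by positivity
  rw [ld_eq, hz, eq_div_iff q0] at hj
  refine ⟨-(j + z * q), ?_⟩
  simp only [Pi.smul_apply, Pi.neg_apply, smul_eq_mul]
  push_cast
  linarith

/-- effective birationality of the anti-log-canonical system -/
theorem bir_lf (h : EB n) {ε : ℝ} {q : ℕ} (hε : 0 < ε) (hq : 0 < q) : ∃ M : ℕ, 0 < M ∧
    ForN n fun K _ _ => ∀ Λ Γ : BD K, LF n ε q Λ Γ → Bir ((M : ℝ) • -Γ) := by
  obtain ⟨m, hm, H⟩ := h ε q hε hq
  refine ⟨m * q, Nat.mul_pos hm hq, fun K _ _ hK Λ Γ l => ?_⟩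
  have q1 : (1 : ℝ) ≤ q := by exact_mod_cast hq
  have := H K hK Λ Γ ((q : ℝ) • -Γ) l.pr l.elc l.cf (l.amp.smul (by positivity))
    (by simpa using l.pr.rat.neg.qsmul q) (zon hq l.cf)
    (((l.amp.nef.smul (by positivity)).add l.amp.nef).psef) (by
      have := (l.amp.nef.smul (sub_nonneg.2 q1)).psef
      rwa [sub_smul, one_smul, sub_neg_eq_add] at this)
  rwa [smul_smul, ← Nat.cast_mul] at this

/-- **SLCF** -/
theorem slcf : SLCF := fun n hA hE ε q hε hq => by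
  obtain ⟨N, hN, H⟩ := hA q hq
  obtain ⟨M, hM, H'⟩ := bir_lf hE hε hq
  refine ⟨M * N, Nat.mul_pos hM hN, fun K _ _ hK Λ Γ l => ?_⟩
  have kl : Klt (n + 1) Γ := fun P => by
    have := l.elc P trivial
    unfold ld at this
    linarith
  by_cases hc : ∃ (G : BD K) (t : ℝ), 0 ≤ t ∧ t < 1 ∧ Rep (-Γ) G ∧ ¬ Klt (n + 1) (Γ + t • G)
  · obtain ⟨G, t, t0, t1, r, k⟩ := hc
    obtain ⟨g, hg⟩ := H K hK Λ Γ G l.pr kl l.amp (fun P hP _ => by
      obtain ⟨j, hj⟩ := l.cf P hP trivial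
      have q0 : (0 : ℝ) < q := by positivity
      have a := l.pr.bdy P hP
      have b := kl P
      unfold ld at hj ⊢
      have j0 : (0 : ℝ) ≤ j := by
        have : (0 : ℝ) ≤ j / q := by linarith
        exact (div_nonneg_iff.1 this).elim (·.1) fun h => absurd h.2 q0.not_ge
      have j1 : (j : ℝ) ≤ q := (div_le_one q0).1 (by linarith)
      lift j to ℕ using (by exact_mod_cast j0)
      have j2 : j ≤ q := by exact_mod_cast j1
      refine ⟨q - j, 1, Nat.sub_le _ _, one_pos, ?_⟩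
      rw [hj, Nat.cast_sub j2]
      push_cast
      field_simp
      ring) t t0 t1 r k
    exact ⟨_, lcc_pow hg M⟩
  · obtain ⟨g, g0, sg⟩ := bir_ne hK (H' K hK Λ Γ l)
    have M0 : (0 : ℝ) < M := by positivity
    have r : Rep (-Γ) ((M : ℝ)⁻¹ • (dv g + (M : ℝ) • -Γ)) := by
      have := (sg.rep g0).smul (inv_pos.2 M0).le
      rwa [inv_smul_smul₀ M0.ne'] at this
    rw [mul_comm]
    refine ⟨_, lcc_pow ⟨sc_iff.2 ⟨g0, sg⟩, fun P _ => ?_⟩ N⟩
    have k : ∀ t : ℝ, 0 ≤ t → t < 1 →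
        t * ((M : ℝ)⁻¹ * P.ord g - Γ P) < cn K (n + 1) P - Γ P + 1 := fun t t0 t1 => by
      have := not_not.1 (fun k => hc ⟨_, t, t0, t1, r, k⟩) P
      simp only [dsc, smul_add, inv_smul_smul₀ M0.ne', Pi.sub_apply, Pi.add_apply, Pi.smul_apply,
        Pi.neg_apply, dv_apply, smul_eq_mul] at this
      linarith
    have k0 := k 0 le_rfl one_pos
    have k1 : (M : ℝ)⁻¹ * P.ord g - Γ P ≤ cn K (n + 1) P - Γ P + 1 := by
      by_contra hn
      rw [not_le] at hn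
      rw [zero_mul] at k0
      have p := k0.trans hn
      have := k (_ / _) (div_pos k0 p).le ((div_lt_one p).2 hn)
      rw [div_mul_cancel₀ _ p.ne'] at this
      exact lt_irrefl _ this
    rw [← inv_mul_le_iff₀ M0]
    linarith

/-- a klt complement from klt complements at every single place -/
theorem klc_of (hM : MOD) (hB : BERT) (hK : FF K (n + 1)) (l : Pr n Λ Γ) {N : ℕ} (hN : 1 < N)
    (h : ∀ P, ∃ g, Sc N Γ All g ∧ (P.ord g : ℝ) < N * (cn K (n + 1) P + 1)) (g₀ : K)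
    (h₀ : Sc N Γ All g₀) : ∃ g, KlC n N Γ All g := by
  have N1 : (1 : ℝ) < N := by exact_mod_cast hN
  have N0 : (0 : ℝ) < N := by positivity
  have := hM.fin n K hK _ ((hM.isb n K hK).1 _ ((Car K).smul_mem (N : ℝ) (neg_mem l.des.car)))
  obtain ⟨S, hS⟩ := Module.Finite.iff_fg.1 this
  have kl : ∀ P, 0 < ld (n + 1) (-((N : ℝ)⁻¹ • mx S)) P := fun P => by
    obtain ⟨g, a, b⟩ := h P
    have c := Int.cast_le (R := ℝ).2
      (P.le_mz_of_span (hS.ge (mem_H0.2 (sc_iff.1 a).2)) a.1)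
    rw [← inv_mul_lt_iff₀ N0] at b
    have := mul_le_mul_of_nonneg_left c (inv_pos.2 N0).le
    simp only [ld_eq, Pi.neg_apply, Pi.smul_apply, smul_eq_mul, mx_apply]
    push_cast at this
    linarith
  obtain ⟨g, hg, g0, -, -, k⟩ := hB n K hK Λ Λ (-((N : ℝ)⁻¹ • mx S)) S ∅ l.smp l.big l.smp
    (neg_mem ((Car K).smul_mem _ (mx_mem_Car S))) (nz_iff_span.2 fun e => h₀.1 (by
      have := hS.ge (mem_H0.2 (sc_iff.1 h₀).2)
      rwa [e] at this)) finite_empty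
  refine ⟨g, sc_iff.2 ⟨g0, mem_H0.1 (hS.le hg)⟩, fun P _ => ?_⟩
  obtain ⟨P', -, e⟩ := k (N : ℝ)⁻¹ P (inv_pos.2 N0).le (inv_le_one_of_one_le₀ N1.le)
    fun P' _ => (kl P').le
  have := (lt_min (kl P') (sub_pos.2 (inv_lt_one_of_one_lt₀ N1))).trans_le e
  simp only [ld_eq, Pi.neg_apply, Pi.add_apply, Pi.smul_apply, smul_eq_mul, dv_apply] at this
  rw [← inv_mul_lt_iff₀ N0]
  linarith

/-- **SKLT** -/
theorem sklt (hM : MOD) (hN : NEG) (hB : BERT) : SKLT := fun n hF hE _ hA ε q hε hq => by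
  obtain ⟨M, hM0, H⟩ := bir_lf hE hε hq
  obtain ⟨t, ht, HA⟩ := hA ε q hε hq
  obtain ⟨c, hc⟩ : ∃ c : ℕ, c + 2 = (n + 2) * M := ⟨_, Nat.sub_add_cancel (by nlinarith)⟩
  have hc' : (c : ℝ) + 2 = (n + 2) * M := by exact_mod_cast hc
  obtain ⟨k, hk⟩ := exists_nat_gt (max (c + 1 : ℝ) (2 * (c + 1) / t))
  have c0 : (0 : ℝ) < c + 1 := by positivity
  have k1 : (c + 1 : ℝ) < k := (le_max_left _ _).trans_lt hk
  have k2 : 2 * (c + 1 : ℝ) < k * t := (div_lt_iff₀ ht).1 ((le_max_right _ _).trans_lt hk)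
  have k0 : (0 : ℝ) < k := c0.trans k1
  have k3 : 1 < k := by
    have : c + 1 < k := by exact_mod_cast k1
    omega
  have M0 : (0 : ℝ) < M := by positivity
  obtain ⟨N, N0, HF⟩ := hF (ε / 2) (q * k) (half_pos hε) (Nat.mul_pos hq (by omega))
  have N0' : (0 : ℝ) < N := by positivity
  refine ⟨k * N * M, by positivity, fun K _ _ hK Λ Γ l => ?_⟩
  have B := H K hK Λ Γ l
  obtain ⟨j, j0, hj⟩ := form_of hK (bir_alg B)
  have sf : ∀ {f : K}, f ≠ 0 → Sec ((M : ℝ) • -Γ) f → ∀ P, M * Γ P ≤ P.ord f :=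
    fun a b P => (sc_iff.2 ⟨a, b⟩).2 P trivial
  -- the effective divisor `Θ`
  set Θ : BD K := dv j + (c + 1 : ℝ) • -Γ with hΘ
  have Θa : ∀ P, Θ P = P.ord j - (c + 1) * Γ P := fun P => by
    simp only [hΘ, Pi.add_apply, dv_apply, Pi.smul_apply, Pi.neg_apply, smul_eq_mul]
    ring
  have dΘ : Dsc Λ Θ := (Dsc.dv l.pr.smp j).add (l.amp.dsc.smul _)
  have Θ0 : 0 ≤ Θ := (hN.nn n K hK Λ Θ l.pr.smp l.pr.big dΘ fun P hP => by
    obtain ⟨f, f0, a, b⟩ := hj P
    have e := l.pr.bdy P hP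
    have := mul_le_mul_of_nonneg_left (sf f0 a P) (by positivity : (0 : ℝ) ≤ n + 2)
    rw [← mul_assoc, ← hc'] at this
    simp only [dsc, Pi.sub_apply] at e
    rw [Θa]
    linarith).1
  have le : ∀ P, (k : ℝ)⁻¹ * Θ P ≤ ld (n + 1) Γ P / 2 := fun P => by
    have := HA K hK Λ Γ ((c + 1 : ℝ)⁻¹ • Θ) l (by
      have := (Sec.rep (β := (c + 1 : ℝ) • -Γ) (Or.inr Θ0) j0).smul (inv_pos.2 c0).le
      rwa [inv_smul_smul₀ c0.ne'] at this) P
    rw [Pi.smul_apply, smul_eq_mul, mul_left_comm, inv_mul_le_iff₀ c0] at this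
    have p := hε.trans_le (l.elc P trivial)
    rw [inv_mul_le_iff₀ k0]
    refine le_of_mul_le_mul_left (this.trans ?_) ht
    nlinarith
  have e₁ : ∀ P, ld (n + 1) (Γ + (k : ℝ)⁻¹ • Θ) P = ld (n + 1) Γ P - (k : ℝ)⁻¹ * Θ P :=
    fun P => by
    simp only [ld_eq, Pi.add_apply, Pi.smul_apply, smul_eq_mul]
    ring
  obtain ⟨g, ⟨g0, g1⟩, g2⟩ := HF K hK Λ (Γ + (k : ℝ)⁻¹ • Θ) ⟨⟨l.pr.smp, l.pr.big,
    l.pr.des.add (dΘ.smul _), l.pr.rat.add (by
      have := ((carQ_dv j).add (l.pr.rat.neg.qsmul (c + 1))).qsmul (k : ℚ)⁻¹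
      simpa [hΘ] using this), fun P hP => by
      have a := l.pr.bdy P hP
      have b := e₁ P
      have := mul_nonneg (inv_pos.2 k0).le (Θ0 P)
      unfold ld at b
      linarith⟩, fun P _ => by
      have := l.elc P trivial
      have := le P
      rw [e₁]
      linarith, fun P hP _ => by
      obtain ⟨a, ha⟩ := l.cf P hP trivial
      obtain ⟨b, hb⟩ := zon hq l.cf P hP
      have q0 : (q : ℝ) ≠ 0 := by positivity
      simp only [Pi.smul_apply, Pi.neg_apply, smul_eq_mul] at hb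
      refine ⟨a * k + q * P.ord j + (c + 1) * b, ?_⟩
      rw [e₁, Θa, ← sub_add, ha]
      push_cast
      rw [← hb]
      field_simp
      ring, by
      have := (l.amp.smul (c := 1 - (k : ℝ)⁻¹ * (c + 1)) (by
        rw [sub_pos, inv_mul_lt_iff₀ k0, mul_one]
        exact k1)).add_prn (neg_mem ((Prn K).smul_mem (k : ℝ)⁻¹ (dv_mem_Prn j)))
      convert this using 1
      rw [hΘ]
      module⟩
  have s₁ : ∀ {f : K}, f ≠ 0 → Sec ((M : ℝ) • -Γ) f → Sc (k * N * M) Γ All (f ^ (k * N)) :=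
    fun a b => sc_pow (sc_iff.2 ⟨a, b⟩) _
  obtain ⟨f₀, f₀0, sf₀⟩ := bir_ne hK B
  refine klc_of hM hB hK l.pr (by nlinarith [Nat.mul_pos N0 hM0]) (fun P => ?_) _ (s₁ f₀0 sf₀)
  obtain ⟨f, f0, a, b⟩ := hj P
  have kN : (0 : ℝ) < k * N := by positivity
  rcases lt_or_ge (P.ord f : ℝ) (M * (cn K (n + 1) P + 1)) with u | u
  · refine ⟨_, s₁ f0 a, ?_⟩
    rw [Pl.ord_pow]
    push_cast
    rw [mul_assoc (k * N : ℝ)]
    exact mul_lt_mul_of_pos_left u kN
  · have o : ∀ Q : Pl K, (Q.ord (g ^ (k * M) * (f ^ (c + 1) / j ^ M) ^ N) : ℝ) =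
        k * M * Q.ord g + N * ((c + 1) * Q.ord f - M * Q.ord j) := fun Q => by
      rw [Pl.ord_mul _ (pow_ne_zero _ g0) (by positivity), Pl.ord_pow, Pl.ord_pow,
        Pl.ord_div _ (pow_ne_zero _ f0) (pow_ne_zero _ j0), Pl.ord_pow, Pl.ord_pow]
      push_cast
      ring
    refine ⟨g ^ (k * M) * (f ^ (c + 1) / j ^ M) ^ N, ⟨by positivity, fun Q _ => ?_⟩, ?_⟩
    · have a₁ := mul_le_mul_of_nonneg_left (g1 Q trivial) (by positivity : (0 : ℝ) ≤ k * M)
      have a₂ := mul_le_mul_of_nonneg_left (sf f0 a Q) (mul_pos N0' c0).le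
      have a₃ : (k : ℝ) * M * (N * (Γ Q + (k : ℝ)⁻¹ * Θ Q)) =
          k * N * M * Γ Q + N * M * (Q.ord j - (c + 1) * Γ Q) := by
        rw [Θa]
        field_simp
      simp only [Pi.add_apply, Pi.smul_apply, smul_eq_mul] at a₁
      rw [o]
      push_cast
      linarith
    · have a₁ := mul_le_mul_of_nonneg_left (g2 P trivial) (by positivity : (0 : ℝ) ≤ k * M)
      have a₂ := mul_le_mul_of_nonneg_left b M0.le
      have a₃ : (c + 1 : ℝ) * P.ord f - M * P.ord j < 0 := by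
        have : (M : ℝ) * ((n + 2) * P.ord f) = (c + 2) * P.ord f := by
          rw [hc']
          ring
        linarith
      have := mul_neg_of_pos_of_neg N0' a₃
      rw [o]
      push_cast
      linarith

end Vale.Agent.P283B.Vk
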