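import Vale.Agent.P283B.VOL.St3
import Vale.Agent.P283B.VOL.Klt

/-!
# P283B, block VOL: the volume is bounded (the centre of a generic tiger)
-/

open Set
open Vale.Agent.P297Z

noncomputable section

namespace Vale.Agent.P283B.Vb

open P287D Eb

variable {n k : ℕ} {K K' : Type} [Field K] [Algebra ℂ K] [Field K'] [Algebra ℂ K'] {φ : K →+* K'}
  {Λ Γ : BD K} {Γ' Δ : BD K'} {a : ℝ} {P R : Pl K'}

/-- **ONE**: connectedness; a second place which is not klt is seen by the adjoint pair -/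
theorem one (h : Ce n φ Λ (-Γ) Γ Γ' Δ a P) (a1 : a < 1) (hR : R ≠ P)
    (l : ld (n + 1) (Γ' + Δ) R ≤ 0) : ¬ Klt n (adj n P (Γ' + Δ)) := fun kl => by
  obtain ⟨g, -, e⟩ := h.xt.eq
  have p : -(Γ' + Δ) - ((1 - a) • pb φ (-Γ) + (a • pb φ (-Γ) - Δ)) ∈ Prn K' := by
    convert dv_mem_Prn g using 1
    rw [e, pb_neg]
    module
  have a0 := sub_pos.2 a1
  obtain ⟨f, f1, f2, f3⟩ := Ku.uext n K' h.xt.ff' P (Γ' + Δ) 1
    ((((h.ok.smp h.sn).smul a0.le).add h.tg.smp).nef.congr p)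
    ((((Gm.big_pb h.ok h.xt.ext.gen h.bn).smul a0).add_smp h.tg.smp).congr p) h.tg.lc
    fun Q => .inr (by simpa using kl Q)
  have f0 : f ≠ 0 := fun z => by simp [z, Ae.rd_zero] at f2
  have z := Ku.rk1_of Ku.hrt h.xt.ff' h.su.smp h.su.big h.su.bdy f f0 fun Q => by
    rcases eq_or_ne Q P with rfl | q
    exacts [.inl (Pl.ord_nonneg_of_mem _ f1), .inr (f3 Q q)]
  have := (f3 R hR).resolve_left f0
  have z' : (R.ord f : ℝ) = 0 := congrFun z R
  unfold ld at l
  linarith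

/-- the complement on the centre -/
theorem lcc {L : Type} [Field L] [Algebra ℂ L] {ψ : K →+* L} {f : L} {N : ℕ} {g : K}
    (m : Mv n k ψ f) (ok : Ok ψ) (h : LcC n N Γ All g) :
    LcC k N (pb ψ Γ - dv f) All (ψ g / f ^ N) := by
  have g0 := (map_ne_zero ψ).2 h.1.1
  have f0 := pow_ne_zero N m.ne
  have N0 : (0 : ℝ) ≤ N := by positivity
  have o : ∀ u : Pl L, (u.ord (ψ g / f ^ N) : ℝ) = u.ord (ψ g) - N * u.ord f := fun u => by
    rw [Pl.ord_div _ g0 f0, Pl.ord_pow]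
    push_cast
    rfl
  refine ⟨⟨div_ne_zero g0 f0, fun u _ => ?_⟩, fun u _ => ?_⟩ <;> rw [o] <;>
    rcases ok u with t | ⟨Q, l⟩
  · simp [t.pb, t.ord, dv_apply]
  · have a : (0 : ℝ) ≤ u.ord (ψ Q.t) := by exact_mod_cast l.e_pos.le
    have := mul_le_mul_of_nonneg_left (h.1.2 Q trivial) a
    rw [Pi.sub_apply, l.pb, l.ord g, dv_apply]
    push_cast
    linarith
  · have := mul_nonneg N0 (m.trv u t)
    rw [Pi.add_apply, dv_apply] at this
    rw [t.ord]
    push_cast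
    linarith
  · have a : (0 : ℝ) ≤ u.ord (ψ Q.t) := by exact_mod_cast l.e_pos.le
    have b := mul_le_mul_of_nonneg_left (h.2 Q trivial) a
    have c := mul_le_mul_of_nonneg_left (m.ge u Q l) N0
    rw [Pi.add_apply, dv_apply] at c
    rw [l.ord g]
    push_cast
    linarith

/-- **SVB** -/
theorem svb_of (wp : WPX) (hC : Vo.CORE) (hV : Vo.VBCUT) : SVB := fun n hF hE _ _ ε q hε hq => by
  obtain ⟨N, hN, HF⟩ := hF ε q hε hq
  obtain ⟨M, hM, HE⟩ := Vk.bir_lf (hE n le_rfl) hε hq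
  have e0 := lt_min hε one_pos
  choose C C0 HC using fun (k : ℕ) (v : ℝ) => hC k N (min ε 1) ((M + 1) ^ (k + 1) * v) hN e0
  obtain ⟨V, HV⟩ := hV n (1 / 2) (fun k v => min (1 / 2) (1 / (4 * C k v))) one_half_pos
    fun k v => lt_min one_half_pos (by have := C0 k v; positivity)
  refine ⟨V, fun K _ _ hK Λ Γ l => HV K hK Λ _ Γ l.pr.smp l.pr.big l.pr.des l.pr.bdy
    (fun P => by linarith [l.elc P trivial, show ld (n + 1) Γ P = dsc (n + 1) Γ P + 1 from rfl])
    l.amp fun K' _ _ φ Γ' Δ a P R h hR hl => ⟨fun h0 => not_le.1 fun a1 => ?_,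
      fun k v hL hv => not_le.1 fun a1 => ?_⟩⟩
  · exact one h (by linarith) hR hl fun w => h.hor w fun x hx =>
      (h.fκ.ok_sub _ w).resolve_right (fun ⟨u, _⟩ => Bm.no_pl h0 u) ⟨x, hx⟩
  obtain ⟨a1, a2⟩ := le_min_iff.1 a1
  have a0 := h.tg.pos
  have M1 : (1 : ℝ) ≤ M := by exact_mod_cast hM
  have ok := h.okψ
  obtain ⟨g, hg⟩ := HF K hK Λ Γ l
  obtain ⟨f, m⟩ := h.mv hL
  obtain ⟨Z, r, b, kl⟩ := h.cenv wp hL m (fun u t => hε.le.trans (l.elc u t))
    (one h (by linarith) hR hl) a0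
  obtain ⟨E, hE⟩ := not_forall.1 kl
  have lc := lcc m ok hg
  have el := m.elc ok e0.le (min_le_right _ _) fun u t => (min_le_left _ _).trans (l.elc u t)
  have s := ok.smp h.sn
  have d := ok.dsc h.dn
  have sZ := r.smp (s.smul (by positivity))
  have p : -(pb h.ψ Γ - dv f) - pb h.ψ (-Γ) ∈ Prn _ := by
    convert dv_mem_Prn f using 1
    rw [pb_neg]
    abel
  have := HC k v _ hL (pb h.ψ Λ) ((M : ℝ) • pb h.ψ (-Γ)) Z _ _ (ok.smp h.smp) (h.bigψ h.big)
    (d.smul _) ((d.smul _).congr r.prn) (s.smul (by positivity)).nef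
    (pb_smul h.ψ _ _ ▸ h.bir (HE K hK Λ Γ l)) r.nonneg sZ.nef
    ((In.hy.vol_mono hL ((s.smul (by positivity)).add sZ).nef
      (s.smul (c := M + 1) (by positivity)).nef ((s.smul (c := 1 - (a + a)) (by linarith)).psef.congr
        (by convert neg_mem r.prn using 1; module))).trans (by
      rw [(In.hy.row _ _ hL).vol_smul _ s.car]
      gcongr)) lc
    (fun u o => le_trans (mul_le_mul_of_nonneg_left (by
      have := b u o
      simp only [dsc, Pi.add_apply, Pi.sub_apply] at this ⊢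
      linarith) N.cast_nonneg) (lc.1.2 u trivial))
    ((ok.carQ l.pr.rat).sub (carQ_dv f)) (s.congr p)
    ((s.smul (sub_nonneg.2 M1)).psef.congr (by convert neg_mem p using 1; module)) el Z
    ((a + a) / M) (by positivity) r.nonneg (by
      rw [smul_smul, div_mul_cancel₀ _ (by positivity)]
      exact (Eff.of_prn (by simpa using neg_mem r.prn)).psef) E
  have x := e0.trans_le (el E trivial)
  have c0 := C0 k v
  have y : C k v * ((a + a) / M) ≤ 1 / 2 := by
    have : (a + a) / M ≤ a + a := div_le_self (by positivity) M1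
    rw [le_div_iff₀ (by positivity)] at a2
    nlinarith
  rw [not_lt, Pr.dsc_add] at hE
  unfold ld at x this
  nlinarith

end Vale.Agent.P283B.Vb
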