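import Vale.Agent.P283B.VOL.St3
import Vale.Agent.P283B.EB.Cut2

/-!
# P283B, block VOL: the ladder of tigers bounds the volume
-/

set_option linter.unusedVariables false

open Set Filter Topology

noncomputable section

namespace Vale.Agent.P283B.Vo

open P287D P287D.Pr Eb

variable {n : ℕ} {η₀ : ℝ} {η : ℕ → ℝ → ℝ}

/-- the generic tigers have a large level or a centre of large volume -/
def Nu {K : Type} [Field K] [Algebra ℂ K] (n : ℕ) (η₀ : ℝ) (η : ℕ → ℝ → ℝ) (N Γ : BD K) (c : ℝ) :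
    Prop :=
  ∀ (K' : Type) [Field K'] [Algebra ℂ K'] (φ : K →+* K') (Γ' Δ : BD K') (a : ℝ) (P : Pl K'),
    Xt n φ Γ Γ' → Tg n (pb φ N) Γ' Δ a P → Trv φ P → (cd (pb φ N) P = 0 → η₀ < a + c) ∧
      ∀ k (h : BD (fld (res P (pb φ N)))) v, FF (fld (res P (pb φ N))) (k + 1) →
        Po (pb φ N) P h → vol (k + 1) h ≤ v → η k v < a + c

/-- a fixed place which is not klt marks all the tigers which are generic over it -/
theorem nu_of {K K₁ : Type} [Field K] [Algebra ℂ K] [Field K₁] [Algebra ℂ K₁] {φ : K →+* K₁}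
    {Λ N Γ : BD K} {Γ₁ G : BD K₁} {x : Pl K₁} {c : ℝ} (s : Smp Λ) (b : Big Λ) (d : Dsc Λ Γ)
    (y : Bdy n Λ Γ) (am : AmpOn Λ N) (nt : NT n η₀ η Λ N Γ) (h : Xt n φ Γ Γ₁) (c0 : 0 < c)
    (r : Rep (c • pb φ N) G) (e : dsc (n + 1) (Γ₁ + G) x ≤ -1) : Nu n η₀ η (pb φ N) Γ₁ c := by
  intro K' _ _ ψ Γ' Δ a P h' t tP
  have r' := h'.ok.rep r
  rw [pb_smul] at r'
  have t' := t.add h'.ff' (h'.ok.smp (h.ok.smp am.smp)) r'.1 c0 (smp_of_rep r') (tP.pb G)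
  obtain ⟨R, l, u⟩ := (h'.add G).up x
  rw [← h'.ok.pb_comp] at t' ⊢
  have ce : Ce n (ψ.comp φ) Λ N Γ Γ' (Δ + pb ψ G) (a + c) P :=
    ⟨h.comp h', t', tP.comp φ, s, b, d, y, am.dsc, am.smp, am.big_iff.1 b⟩
  obtain ⟨k0, k1⟩ := nt K' _ Γ' _ _ P R ce (fun z => l.not_trv (z ▸ tP)) (by
    rw [ld, add_comm Δ, ← add_assoc, dsc_add, u]
    linarith [t.nn R, show (0 : BD K') R = 0 from rfl])
  refine ⟨fun z => k0 (z ▸ ff_fld ce.fκ _), fun k g v f p w => k1 k v f (le_of_eq_of_le ?_ w)⟩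
  refine Iso.I_congr (In.hy.row _ _ f) (fun _ => p.smp.car) fun _ =>
    (pb_prn_iff ce.fκ (cld_fld _)).1 ?_
  rw [pb_sub, ← ce.res_pb am.car]
  exact p.prn

theorem lad (hB : PBU) (hM : MULT) (hA : ADJ) (e0 : 0 < η₀) (e1 : ∀ k v, 0 < η k v) (j : ℕ) :
    ∃ e : ℝ, 0 < e ∧ ∀ (K : Type) [Field K] [Algebra ℂ K] (N Γ : BD K) (c : ℝ), Bz n N Γ →
      c ≤ e → Nu n η₀ η N Γ c → ¬ EM n N Γ ⊥ e j := by
  induction j with
  | zero =>
    refine ⟨η₀ / 2, half_pos e0, fun K _ _ N Γ c z a u ⟨K', _, _, φ, Γ', Δ, P, R, m, o⟩ => ?_⟩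
    linarith [(u K' φ Γ' Δ _ P m.xt m.tg m.tP).1 (Nat.le_zero.1 o)]
  | succ j ih =>
    obtain ⟨e, p, H⟩ := ih
    have p8 : 0 < e / 8 := by positivity
    obtain ⟨t, ⟨t1, t2⟩, t0⟩ := (((eventually_all.2 fun k : Fin n => gt_mem_nhds
      (half_pos (e1 k (((n + 2) / (e / 8)) ^ (k.1 + 1)))) : ∀ᶠ t in 𝓝 (0 : ℝ), ∀ k : Fin n,
        t < η k (((n + 2) / (e / 8)) ^ (k.1 + 1)) / 2).and
      (gt_mem_nhds (half_pos p))).filter_mono nhdsWithin_le_nhds).and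
      (self_mem_nhdsWithin (s := Ioi (0 : ℝ))) |>.exists
    refine ⟨t, t0, fun K _ _ N Γ c z a u m => H K N Γ c z (by linarith) u
      (cuts hB hM hA z m (c := e / 8) (fun K' _ _ φ Γ' Δ P k h kn x y w f o => ?_) p8
        (by linarith))⟩
    rw [(In.hy.row _ _ f).vol_smul _ o.smp.car, ← div_lt_iff₀' (pow_pos p8 _), ← div_pow]
    refine not_le.1 fun v => ?_
    linarith [(u K' φ Γ' Δ t P x y w).2 k h _ f o v, t1 ⟨k, kn⟩]

/-- **VBCUT** from the leaves of the cutting argument -/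
theorem vbcut_of (hB : PBU) (hM : MULT) (hA : ADJ) : VBCUT := fun n η₀ η e0 e1 => by
  obtain ⟨e, p, H⟩ := lad (n := n) hB hM hA e0 e1 n
  have p4 : 0 < e / 4 := by positivity
  refine ⟨((n + 2) / (e / 4)) ^ (n + 1), fun K _ _ hK Λ N Γ s b d y _ am nt => not_lt.1 fun v => ?_⟩
  rw [div_pow, div_lt_iff₀' (pow_pos p4 _), ← (In.hy.row _ _ hK).vol_smul _ am.car] at v
  have z : Bz n N Γ := ⟨hK, am.smp, am.big_iff.1 b, Ae.nef_of_dsc (am.dsc_iff.1 d),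
    fun P o => y P (on_mono res' hK am.smp s am.dsc o)⟩
  obtain ⟨K₁, _, _, φ, x, i, hK₁, g⟩ := Gm.gen_pt n K hK
  obtain ⟨Γ₁, h⟩ := exists_xt i hK Γ
  have sN := am.smp.smul p4.le
  obtain ⟨G, r, m⟩ := g.mult _ sN.nef _ (by positivity) v
  rw [pb_smul] at r
  refine H K₁ _ Γ₁ (e / 4) (z.up h) (by linarith) (nu_of s b d y am nt h p4 r (x := x) ?_)
    (first (z.up h) p4 ?_ (by linarith) fun u => IntermediateField.mem_bot.1)
  · rw [dsc_add, h.gen g]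
    linarith
  · rwa [← pb_smul, h.vol sN.car]

end Vale.Agent.P283B.Vo
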