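import Vale.Agent.P283B.VOL.St2
import Vale.Agent.P283B.U.Lg

/-!
# P283B, block VOL: the order of a polynomial in coordinates
-/

set_option linter.unusedVariables false

open Set Function MvPolynomial
open Vale.Agent.P297Z
open Vale.Agent.P285N.Brep (jac Fr)

noncomputable section

namespace Vale.Agent.P283B.Vo

open P287D P287D.Cb

variable {K : Type} [Field K] [Algebra ℂ K] {n : ℕ} {y : Fin n → K}
  {D : Fin n → Derivation ℂ K K} {P : Pl K} {f : K} {r : ℝ}

theorem al_nonneg (hK : FF K n) (hy : AlgebraicIndependent ℂ y) (P : Pl K) : 0 ≤ al y P :=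
  sub_nonneg.2 (sum_le_kap hK hy P)

theorem sub_mono {r r' : ℝ} (h : f ∈ P.sub r) (e : r ≤ r') : f ∈ P.sub r' :=
  h.imp_right fun a => by linarith

/-- a logarithmic derivation loses at most the log discrepancy -/
theorem log_sub (hK : FF K n) (hy : AlgebraicIndependent ℂ y) (h : Fr y D) (j : Fin n)
    (hf : f ∈ P.sub r) : y j * D j f ∈ P.sub (r + al y P) := by
  by_cases h0 : D j f = 0
  · rw [h0, mul_zero]
    exact zero_mem _
  have f0 : f ≠ 0 := fun e => h0 (by rw [e, map_zero])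
  obtain ⟨k1, k2⟩ := U.kap_upd h h0
  have k3 := sum_le_kap hK k1 P
  rw [U.sum_upd, k2, Pi.add_apply, dv_apply] at k3
  have k4 := hf.resolve_left f0
  refine Or.inr ?_
  rw [Pl.ord_mul _ (hy.ne_zero j) h0, al]
  push_cast
  linarith

theorem coeff_eul (j : Fin n) (p : MvPolynomial (Fin n) ℂ) (v : Fin n →₀ ℕ) :
    coeff v (X j * pderiv j p) = v j * coeff v p := by
  classical
  induction p using MvPolynomial.induction_on' with
  | monomial m a =>
    rw [X_mul_pderiv_monomial, coeff_smul, coeff_monomial]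
    split_ifs with e
    · simp [e]
    · simp
  | add p q hp hq => rw [map_add, mul_add, coeff_add, coeff_add, hp, hq, mul_add]

theorem ord_mon (hy : ∀ j, y j ≠ 0) (u : Fin n →₀ ℕ) {c : ℂ} (hc : c ≠ 0) :
    aeval y (monomial u c) ≠ 0 ∧
      (P.ord (aeval y (monomial u c)) : ℝ) = ∑ j, (P.ord (y j) : ℝ) * u j := by
  have a : ∀ j ∈ Finset.univ, y j ^ u j ≠ 0 := fun j _ => pow_ne_zero _ (hy j)
  have c0 : algebraMap ℂ K c ≠ 0 := (_root_.map_ne_zero _).2 hc
  have b := Finset.prod_ne_zero_iff.2 a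
  rw [aeval_monomial, Finsupp.prod_fintype _ _ (by simp)]
  refine ⟨mul_ne_zero c0 b, ?_⟩
  rw [Pl.ord_mul _ c0 b, P.ord_const, zero_add, P.ord_prod _ a]
  push_cast
  exact Finset.sum_congr rfl fun j _ => by rw [Pl.ord_pow]; push_cast; ring

theorem proj (hK : FF K n) (hy : AlgebraicIndependent ℂ y) {p : MvPolynomial (Fin n) ℂ}
    (hp : aeval y p ∈ P.sub r) {u : Fin n →₀ ℕ} (hu : u ∈ p.support)
    (s : Finset (Σ _ : Fin n, ℕ)) (hs : ∀ a ∈ s, u a.1 ≠ a.2) :
    ∃ q : MvPolynomial (Fin n) ℂ, u ∈ q.support ∧ aeval y q ∈ P.sub (r + s.card * al y P) ∧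
      ∀ v ∈ q.support, v ∈ p.support ∧ ∀ a ∈ s, v a.1 ≠ a.2 := by
  classical
  obtain ⟨D, h⟩ := fr_of hK hy
  induction s using Finset.induction_on with
  | empty => exact ⟨p, hu, by simpa using hp, fun v a => ⟨a, by simp⟩⟩
  | insert a s ha ih =>
    obtain ⟨q, q1, q2, q3⟩ := ih fun b e => hs b (Finset.mem_insert_of_mem e)
    have c : ∀ v, coeff v (X a.1 * pderiv a.1 q - (a.2 : ℂ) • q) =
        ((v a.1 : ℂ) - a.2) * coeff v q := fun v => by
      rw [coeff_sub, coeff_eul, coeff_smul, smul_eq_mul, sub_mul]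
    refine ⟨X a.1 * pderiv a.1 q - (a.2 : ℂ) • q, ?_, ?_, fun v hv => ?_⟩
    · rw [mem_support_iff, c]
      exact mul_ne_zero (sub_ne_zero.2 (by exact_mod_cast hs a (Finset.mem_insert_self _ _)))
        (mem_support_iff.1 q1)
    · rw [map_sub, map_mul, aeval_X, map_smul, Finset.card_insert_of_notMem ha, Nat.cast_succ,
        add_mul, one_mul, ← add_assoc]
      have k : D a.1 (aeval y q) = aeval y (pderiv a.1 q) := U.der_aeval h injective_id a.1 q
      refine sub_mem (k ▸ log_sub hK hy h a.1 q2) (Submodule.smul_mem _ _ (sub_mono q2 ?_))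
      linarith [al_nonneg hK hy P]
    · rw [mem_support_iff, c, mul_ne_zero_iff] at hv
      have k := q3 v (mem_support_iff.2 hv.2)
      refine ⟨k.1, fun b e => ?_⟩
      rcases Finset.mem_insert.1 e with rfl | e
      · exact fun z => hv.1 (by rw [z, sub_self])
      · exact k.2 b e

theorem ri' (hK : FF K n) (hy : AlgebraicIndependent ℂ y) (E : Pl K) {p : MvPolynomial (Fin n) ℂ}
    {d : ℕ} (hd : p.totalDegree ≤ d) {u : Fin n →₀ ℕ} (hu : u ∈ p.support) :
    (E.ord (aeval y p) : ℝ) ≤ ∑ j, (E.ord (y j) : ℝ) * u j + n * d * al y E := by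
  classical
  have b : ∀ v ∈ p.support, ∀ j, v j ∈ Finset.range (d + 1) := fun v hv j =>
    Finset.mem_range.2 (Nat.lt_succ_of_le
      ((monomial_le_degreeOf j hv).trans ((degreeOf_le_totalDegree p j).trans hd)))
  obtain ⟨q, q1, q2, q3⟩ := proj hK hy (P := E) (r := -E.ord (aeval y p)) (Or.inr (by simp)) hu
    (Finset.univ.sigma fun j => (Finset.range (d + 1)).erase (u j))
    fun a ha => (Finset.ne_of_mem_erase (Finset.mem_sigma.1 ha).2).symm
  have e : q = monomial u (coeff u q) := by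
    refine (q.as_sum).trans (Finset.sum_eq_single_of_mem u q1 fun v hv h => absurd ?_ h)
    ext j
    by_contra z
    exact (q3 v hv).2 ⟨j, v j⟩ (Finset.mem_sigma.2 ⟨Finset.mem_univ _,
      Finset.mem_erase.2 ⟨z, b v (q3 v hv).1 j⟩⟩) rfl
  obtain ⟨m1, m2⟩ := ord_mon (P := E) hy.ne_zero u (mem_support_iff.1 q1)
  rw [← e] at m1 m2
  have k := q2.resolve_left m1
  rw [m2, Finset.card_sigma, Finset.sum_congr rfl fun j _ => Finset.card_erase_of_mem (b u hu j)]
    at k
  simp only [Finset.card_range, Nat.add_sub_cancel, Finset.sum_const, Finset.card_univ,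
    Fintype.card_fin, smul_eq_mul, Nat.cast_mul] at k
  linarith

theorem low' (hy : ∀ j, y j ≠ 0) (E : Pl K) {p : MvPolynomial (Fin n) ℂ} (hp : aeval y p ≠ 0) :
    ∃ u ∈ p.support, ∑ j, (E.ord (y j) : ℝ) * u j ≤ E.ord (aeval y p) := by
  have p0 : p ≠ 0 := fun e => hp (by rw [e, map_zero])
  obtain ⟨u, hu, h⟩ := p.support.exists_min_image (fun u => ∑ j, (E.ord (y j) : ℝ) * u j)
    (support_nonempty.2 p0)
  refine ⟨u, hu, ?_⟩
  have k : aeval y p ∈ E.sub (-∑ j, (E.ord (y j) : ℝ) * u j) := by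
    rw [p.as_sum, map_sum]
    refine Submodule.sum_mem _ fun v hv => Or.inr ?_
    rw [(ord_mon hy v (mem_support_iff.1 hv)).2]
    linarith [h v hv]
  linarith [k.resolve_left hp]

theorem ri : RI := fun n K _ _ hK y E p d hy hd u hu => by
  simpa using ri' hK hy E hd hu

theorem low : LOW := fun n K _ _ hK y E p hy hp =>
  low' hy.ne_zero E fun e => hp (algebraicIndependent_iff.1 hy p e)

end Vale.Agent.P283B.Vo
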