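import Vale.Agent.P283B.VOL.St
import Vale.Agent.P287D.Pr.Lr
import Vale.Agent.P287D.Ku.Ex
import Vale.Agent.P287D.In.Int

/-!
# P283B, block VOL: a prime of `V (mx u)` is not fixed in the adjoint system (`FRE`)
-/

set_option linter.unusedVariables false

open Set
open Vale.Agent.P297Z.Pl

noncomputable section

namespace Vale.Agent.P283B.Vo

open P287D

variable {n : ℕ} {K : Type} [Field K] [Algebra ℂ K]

/-- a general member of a big system: its components are primes of `V (mx u)` -/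
theorem ber1x (hK : FF K (n + 1)) {T₀ : Set (Pl K)} (hT : T₀.Finite) {B : Set (BD K)}
    (hB : B.Finite) (hc : ∀ β ∈ B, β ∈ Car K) {u : Finset K} (hu : Big (mx u)) :
    ∃ (s : Finset K) (κ : BD K) (T Y T' : Finset (Pl K)) (h : Pl K → BD K) (f : K),
      LS n (mx s) κ T' h ∧ (∀ P, P ∈ T' ↔ P ∈ T ∨ P ∈ Y) ∧ Disjoint T Y ∧ (∀ P ∈ T₀, P ∈ T) ∧
      Sup n (mx s) T κ ∧ (∀ β ∈ B, Sup n (mx s) T β) ∧ 0 ≤ dv f + mx u ∧
      Sup n (mx s) Y (dv f + mx u) ∧ ∀ P ∈ Y, (dv f + mx u) P = 1 ∧ On n (mx u) P := by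
  obtain ⟨w, w0, e⟩ := exists_nz u
  obtain ⟨s₀, κ₀, T₁, h₀, l₀, -, -, -⟩ := exists_ls hK finite_empty (B := ∅) finite_empty
    fun _ h => h.elim
  have fin := Ba.mod.exc n K hK _ _ l₀.smp l₀.big (smp_mx u) hu
  obtain ⟨s, κ, T, Y, T', h, f, l, a, b, c, d, g, i, f0, j, k⟩ := Pr.ber1 hK (hT.union fin)
    (hB.insert κ₀) (forall_mem_insert.2 ⟨CarZ.car l₀.kz, hc⟩) w0
  rw [e] at j k
  refine ⟨s, κ, T, Y, T', h, f, l, a, b, fun P p => c P (.inl p), d,
    fun β p => g β (mem_insert_of_mem _ p), e ▸ (sec_of_span i).resolve_left f0, j,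
    fun P p => ⟨k P p, by_contra fun z => ?_⟩⟩
  have o := l.on P ((a P).2 (.inr p))
  have t := Finset.disjoint_right.1 b p
  have x := l.d0 o
  have y := l₀.one P fun v => t (c P (.inr ⟨v, z⟩))
  simp only [dsc, Pi.sub_apply] at x y
  linarith [d.2 P o t, (g κ₀ (mem_insert _ _)).2 P o t]

theorem unit_of_rd {P : Pl K} {g : K} (h : g ∈ P.ring) (h0 : P.rd g ≠ 0) : g ≠ 0 ∧ P.ord g = 0 :=
  have k := not_or.1 (mt (Bm.rd_zero_iff P h).2 h0)
  ⟨k.1, le_antisymm (not_lt.1 k.2) (ord_nonneg_of_mem P.toPlace h)⟩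

/-- curves -/
theorem fre0 (hK : FF K 1) (G : BD K) (u : Finset K) (D : Pl K) (hu : Big (mx u))
    (hG : Nef (-G - (2 : ℝ) • mx u)) :
    ∃ f, f ≠ 0 ∧ (∀ P, Aj 1 G P f) ∧ dsc 1 G D + D.ord f ≤ 0 := by
  have cM := mx_mem_Car u
  have cN : -G ∈ Car K := by simpa using add_mem hG.car ((Car K).smul_mem 2 cM)
  obtain ⟨z, hz⟩ : ∃ z : ℤ, z = ⌈dsc 1 G D⌉ := ⟨_, rfl⟩
  have z1 : dsc 1 G D ≤ z := hz ▸ Int.le_ceil _
  have z2 : (z : ℝ) < dsc 1 G D + 1 := hz ▸ Int.ceil_lt_add_one _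
  have cδ := (Car K).smul_mem (dsc 1 G D - z + 1) (CarZ.car (Cv.δ_carZ hK D))
  have ct := (Car K).smul_mem (z : ℝ) (dv_mem_Car D.t)
  have e : -(G + (dsc 1 G D - z + 1) • D.δ + (z : ℝ) • dv D.t) =
      -G - (dsc 1 G D - z + 1) • D.δ - (z : ℝ) • dv D.t := by abel
  have c := sub_mem (sub_mem cN cδ) ct
  have p : 0 < I1 (-G - (dsc 1 G D - z + 1) • D.δ - (z : ℝ) • dv D.t) := by
    obtain ⟨m, hm⟩ := Cv.I1_int hK (mx_mem_CarZ u)
    have a := (Cv.big_iff hK cM).1 hu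
    have b := ((Cv.nef_iff hK).1 hG).2
    rw [Cv.I1_sub hK cN ((Car K).smul_mem 2 cM), Cv.I1_smul, hm] at b
    rw [hm] at a
    have a' : (1 : ℝ) ≤ m := by exact_mod_cast a
    rw [Cv.I1_sub hK (sub_mem cN cδ) ct, Cv.I1_sub hK cN cδ, Cv.I1_smul, Cv.I1_smul, Cv.I1_δ,
      Cv.I1_dv hK]
    linarith
  have d : ∀ R, dsc 1 (G + (dsc 1 G D - z + 1) • D.δ + (z : ℝ) • dv D.t) R =
      dsc 1 G R - (dsc 1 G D - z + 1) * D.δ R - z * R.ord D.t := fun R => by
    rw [Pr.dsc_add_smul, Pr.dsc_add_smul, dv_apply]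
  obtain ⟨g, g1, g2, g3⟩ := Ku.uext 0 K hK D _ 1 (e ▸ (Cv.nef_iff hK).2 ⟨c, p.le⟩)
    (e ▸ (Cv.big_iff hK c).2 p) (by rw [d, D.δ_self, D.ord_t]; push_cast; ring)
    fun Q => (Bm.no_pl (Bm.ff_κ hK D) Q).elim
  obtain ⟨g0, g4⟩ := unit_of_rd g1 (g2 ▸ one_ne_zero)
  have t0 := zpow_ne_zero (-z) D.t_ne
  have o : (D.ord (g * D.t ^ (-z)) : ℝ) = -z := by rw [D.ord_mul_t g0, g4]; simp
  refine ⟨g * D.t ^ (-z), mul_ne_zero g0 t0, fun R => .inr ?_, by rw [o]; linarith⟩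
  rcases eq_or_ne R D with rfl | k
  · rw [o]; linarith
  · have a := (g3 R k).resolve_left g0
    rw [d, Pl.δ_ne k] at a
    rw [ord_mul _ g0 t0, ord_zpow]
    push_cast
    linarith

/-- a component `P` of a member `H` of `M` and a prime of `P` in the trace of `η` -/
theorem exists_cut (hK : FF K (n + 2)) {A M H η : BD K} {D : Pl K} (hM : Nef M) (dM : Dsc A M)
    (e : H - M ∈ Prn K) (hη : Hull (n + 1) A D.δ η) (hD : On (n + 1) M D) :
    ∃ P, On (n + 1) A P ∧ H P ≠ 0 ∧ ∃ Q : Pl P.κ, res P η Q ≠ 0 ∧ On n (res P M) Q := by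
  have cM := hM.car
  have dc : ∀ i, Dsc A ((Fin.cons η fun _ => M : Fin (n + 1) → BD K) i) :=
    In.cons_mem hη.1 fun _ => dM
  have a : 0 < I (n + 2) K (Fin.cons η (Fin.cons M fun _ => M)) := by
    have := In.hy.cf_hull hK dM.smp (b := fun _ => M) (fun _ => dM) hη
    have k : (Fin.cons M fun _ => M : Fin (n + 1) → BD K) = fun _ => M :=
      funext fun i => Fin.cases rfl (fun _ => rfl) i
    rw [k, ← this]
    exact hD
  rw [In.hy.swap hK hη.1.car cM fun _ => cM,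
    ← In.hy.cons_congr hK (In.hy.isb _ K hK _ cM) e fun i => (dc i).car, In.I_cons] at a
  obtain ⟨P, hP⟩ : ∃ P, H P * In.cf P (Fin.cons η fun _ => M : Fin (n + 1) → BD K) ≠ 0 :=
    by_contra fun z => a.ne' (finsum_eq_zero_of_forall_eq_zero fun P =>
      not_not.1 fun w => z ⟨P, w⟩)
  have b := right_ne_zero_of_mul hP
  refine ⟨P, by_contra fun z => b (In.hy.exc hK z dM.smp dc), left_ne_zero_of_mul hP, ?_⟩
  obtain ⟨Q, hQ⟩ : ∃ Q : Pl P.κ, res P η Q * vol n (res Q (res P M)) ≠ 0 :=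
    by_contra fun z => b (finsum_eq_zero_of_forall_eq_zero fun Q => not_not.1 fun w => z ⟨Q, w⟩)
  have k := Bm.ff_κ hK P
  exact ⟨Q, left_ne_zero_of_mul hQ, (In.hy.vol_nonneg (Bm.ff_κ k Q)
    (res_nef k Q (res_nef hK P hM))).lt_of_ne' (right_ne_zero_of_mul hQ)⟩

theorem fre : FRE := by
  classical
  intro n
  induction n with
  | zero => exact fun K _ _ hK G u D a b _ => fre0 hK G u D a (by simpa using b)
  | succ n ih =>
    intro K _ _ hK G u D hu hG hD
    have cM := mx_mem_Car u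
    have cG : G ∈ Car K := by
      simpa using neg_mem (add_mem hG.car ((Car K).smul_mem (((n + 1 : ℕ) : ℝ) + 2) cM))
    obtain ⟨s, κ, T, Y, T', h, f, l, a, b, c, d, g, H0, sH, hY⟩ := ber1x hK (finite_singleton D)
      (toFinite {G, mx u}) (forall_mem_insert.2 ⟨cG, forall_eq.2 cM⟩) hu
    have sG := g G (.inl rfl)
    have dT := c D rfl
    have oD := l.on D ((a D).2 (.inl dT))
    obtain ⟨H, hH⟩ : ∃ H, H = dv f + mx u := ⟨_, rfl⟩
    have eH : H - mx u ∈ Prn K := by rw [hH, add_sub_cancel_right]; exact dv_mem_Prn f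
    rw [← hH] at H0 sH hY
    obtain ⟨P, oP, p1, Q, q1, q2⟩ := exists_cut hK (nef_mx u) (g _ (.inr rfl)).1 eH (l.hull D oD) hD
    have pY : P ∈ Y := by_contra fun z => p1 (sH.2 P oP z)
    have pT := Finset.disjoint_right.1 b pY
    have pD : P ≠ D := fun z => pT (z ▸ dT)
    have cΓ := add_mem cG sH.1.car
    have kG : ∀ R, On (n + 1) (mx s) R → R ∉ T → dsc (n + 1 + 1) G R = 0 := fun R o t => by
      have x := l.d0 o
      simp only [dsc, Pi.sub_apply] at x ⊢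
      linarith [d.2 R o t, sG.2 R o t]
    have eP : dsc (n + 1 + 1) (G + H) P = -1 := by rw [Pr.dsc_add, kG P oP pT, (hY P pY).1, zero_sub]
    have nΓ : Nef (-(G + H) - ((n : ℝ) + 2) • mx u) := hG.congr (by
      rw [show -(G + H) - ((n : ℝ) + 2) • mx u - (-G - (((n + 1 : ℕ) : ℝ) + 2) • mx u) =
        -(H - mx u) by push_cast; module]
      exact neg_mem eH)
    have n2 : (0 : ℝ) < n + 2 := by positivity
    rw [res_mx hK] at q2
    obtain ⟨f', f0, f1, f2⟩ := ih P.κ (Bm.ff_κ hK P) (adj (n + 1) P (G + H)) (P.rs u) Q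
      (res_mx hK P u ▸ (on_iff_big hK P (nef_mx u)).1 (hY P pY).2)
      ((res_nef hK P nΓ).congr (by
        rw [res_sub_smul hK P (neg_mem cΓ) cM, res_neg hK P cΓ, res_mx hK, sub_sub_sub_cancel_right,
          neg_sub_neg, ← neg_sub]
        exact neg_mem (a1 _ K hK P _ cΓ).2.1)) q2
    obtain ⟨w, w1, w2, w3⟩ := Ku.uext _ K hK P (G + H) f'
      (by simpa using nΓ.add ((nef_mx u).smul n2.le))
      (by simpa using nΓ.psef.add_big (hu.smul n2)) eP f1
    obtain ⟨w0, w4⟩ := unit_of_rd w1 (w2 ▸ f0)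
    refine ⟨w, w0, fun R => ?_, ?_⟩
    · rcases eq_or_ne R P with rfl | k
      · exact Aj.of_klt (by rw [kG R oP pT]; exact neg_one_lt_zero) w4.ge
      · exact (w3 R k).mono (le_add_of_nonneg_right (H0 R))
    obtain ⟨S, hS⟩ : ∃ S, S = ∑ R ∈ T', h R := ⟨_, rfl⟩
    have s1 := l.hull_sum fun _ => 1
    simp only [one_smul, ← hS] at s1
    have cΘ := add_mem d.1.car s1.1.car
    have lc := (a2l _ K hK P (κ + S) cΘ (by
      rw [Pr.dsc_add, l.d0 oP, s1.2 P oP, if_pos ((a P).2 (.inr pY)), zero_sub])).2.1 (fun R => by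
        have := l.snc R
        rw [← Finset.sum_apply, ← hS] at this
        rw [Pr.dsc_add]
        linarith) Q
    have dE := (Dsc.dv l.smp w).add ((d.1.add s1.1).sub (sG.1.add sH.1))
    have vE : ∀ R, On (n + 1) (mx s) R → (dv w + (κ + S - (G + H))) R =
        dsc (n + 1 + 1) (G + H) R + R.ord w + if R ∈ T' then 1 else 0 := fun R o => by
      have x := l.d0 o
      rw [← s1.2 R o]
      simp only [dsc, Pi.sub_apply, Pi.add_apply, dv_apply] at x ⊢
      linarith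
    have EP : (dv w + (κ + S - (G + H))) P = 0 := by
      rw [vE P oP, eP, w4, if_pos ((a P).2 (.inr pY))]; simp
    have E0 := l.hart _ dE fun R o => by
      rcases eq_or_ne R P with rfl | k
      · exact EP.ge
      have x := (w3 R k).resolve_left w0
      rw [vE R o]
      split_ifs with t
      · linarith
      · have t' := not_or.1 (mt (a R).2 t)
        rw [Pr.dsc_add, kG R o t'.1, sH.2 R o t'.2, sub_zero, zero_add] at x ⊢
        have : -1 < R.ord w := by exact_mod_cast x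
        exact_mod_cast (show 0 ≤ R.ord w + 0 by omega)
    have hP : h D P = 0 := ((l.hull D oD).2 P oP).trans (Pl.δ_ne pD)
    have ch := CarZ.car (l.hz D)
    have m := res_mono hK P ((Car K).smul_mem _ ch) dE.car (l.le_smul dE E0 oD)
      (by rw [Pi.smul_apply, hP, EP, smul_zero]) Q
    have r : 1 ≤ res P (h D) Q := by
      obtain ⟨z, hz⟩ := CarZ.int (res_carZ hK P (l.hz D)) Q
      have : 0 < res P (h D) Q := (res_nonneg hK P ch (l.nn oD) hP Q).lt_of_ne' q1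
      rw [hz] at this ⊢
      exact_mod_cast this
    have v := (a4 _ K hK P _ cΓ _ (sub_mem cΘ cΓ)).1
    rw [add_sub_cancel] at v
    rw [v, Pr.dsc_add] at lc
    have x : 0 ≤ (dv w + (κ + S - (G + H))) D := E0 D
    rw [vE D oD, if_pos ((a D).2 (.inl dT)), Pr.dsc_add,
      sH.2 D oD (Finset.disjoint_left.1 b dT)] at m x
    rw [res_smul hK P _ ch, res_add hK P (dv_mem_Car w) (sub_mem cΘ cΓ), res_dv_unit hK P w0 w4, w2,
      Pi.smul_apply, Pi.add_apply, dv_apply, smul_eq_mul] at m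
    nlinarith [mul_le_mul_of_nonneg_left r x]

/-- **FREE**: the discrepancy of a prime of `V (mx u)` is bounded by the fixed part -/
theorem free (hK : FF K (n + 1)) {Λ β G : BD K} {u : Finset K} {D : Pl K} (bΛ : Big Λ)
    (hB : Bdy n Λ G) (hβ : Dsc Λ β) (e : mx u ≤ β) (hu : Big (mx u)) (hG : Nef (-G))
    (hD : On n (mx u) D) : (⌈dsc (n + 1) G D⌉ : ℝ) ≤ (n + 2) * (β D - mx u D) := by
  have n2 : (0 : ℝ) < n + 2 := by positivity
  obtain ⟨f, f0, f1, f2⟩ := fre n K hK (G + (-(n + 2 : ℝ)) • mx u) u D hu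
    (by rwa [neg_add, neg_smul, neg_neg, add_sub_cancel_right]) hD
  have k := Pr.hart res' hK hβ.smp bΛ ((Dsc.dv hβ.smp f).add (hβ.smul (n + 2))) (fun P o => by
    have x := (f1 P).resolve_left f0
    rw [Pr.dsc_add_smul, mx_apply] at x
    have y : (-1 : ℝ) < (P.ord f + (n + 2) * P.mz u : ℤ) := by
      push_cast
      linarith [hB P o]
    have z : (0 : ℝ) ≤ (P.ord f + (n + 2) * P.mz u : ℤ) := by
      exact_mod_cast Int.lt_iff_add_one_le.1 (show (-1 : ℤ) < _ by exact_mod_cast y)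
    have := mul_le_mul_of_nonneg_left (e P) n2.le
    rw [mx_apply] at this
    push_cast at z
    simp only [Pi.add_apply, Pi.smul_apply, smul_eq_mul, dv_apply]
    linarith) D
  rw [Pr.dsc_add_smul, mx_apply] at f2
  have y : ⌈dsc (n + 1) G D⌉ ≤ -(D.ord f + (n + 2) * D.mz u) := Int.ceil_le.2 (by
    push_cast
    linarith)
  have z : (⌈dsc (n + 1) G D⌉ : ℝ) ≤ -(D.ord f + (n + 2) * D.mz u) := by exact_mod_cast y
  simp only [Pi.add_apply, Pi.smul_apply, smul_eq_mul, dv_apply, Pi.zero_apply] at k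
  rw [mx_apply]
  linarith

end Vale.Agent.P283B.Vo
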