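import Vale.Agent.P283B.Spec
import Vale.Agent.P287D.Ku.St

/-!
# P283B, block VOL: statements
-/

set_option linter.unusedVariables false

open Set
open Vale.Agent.P285N.Brep (jac Fr)

noncomputable section

namespace Vale.Agent.P283B.Vo

open P287D

section defs

variable {K : Type} [Field K] [Algebra ℂ K] {k : ℕ}

open Classical in
/-- the system `1, y` -/
def hy (y : Fin k → K) : Finset K := insert 1 (Finset.univ.image y)

/-- the log discrepancy for the form `dy / y` -/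
def al (y : Fin k → K) (P : Pl K) : ℝ := kap y P + 1 - ∑ j, (P.ord (y j) : ℝ)

open Classical in
/-- a chart `y` of size `e` at `E` for the form `φ (dx) ^ N = F (dy / y) ^ N` -/
structure Cht (e N : ℕ) (S : Finset K) (x : Fin k → K) (φ : K) (E : Pl K) (y : Fin k → K)
    (F : K) : Prop where
  ind : AlgebraicIndependent ℂ y
  mem : ∀ j, y j ∈ E.ring
  ne : F ≠ 0
  reg : F ∈ E.ring
  eq : ∀ P : Pl K, (P.ord F : ℝ) = P.ord φ + N * (kap x P + 1 - al y P)
  rk : Module.finrank (IntermediateField.adjoin ℂ (range y)) K ≤ e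
  big : Eff ((e : ℝ) • mx (hy y) - mx S - mx {1, F})

end defs

/-- **FRE**: a prime divisor of `V (mx u)` is not in the fixed part of the adjoint system -/
def FRE : Prop := ForS fun n K _ _ => ∀ (G : BD K) (u : Finset K) (D : Pl K), Big (mx u) →
  Nef (-G - (n + 2 : ℝ) • mx u) → On n (mx u) D →
  ∃ f, f ≠ 0 ∧ (∀ P, Aj (n + 1) G P f) ∧ dsc (n + 1) G D + D.ord f ≤ 0

/-- **CH**: coordinates at the centre of a valuation ring in which finitely many functions and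
the form `dx` are monomial -/
def CH : Prop := ForS fun n K _ _ => ∀ (S : Finset K) (x : Fin (n + 1) → K)
  (R : ValuationSubring K), AlgebraicIndependent ℂ x → (∀ c, algebraMap ℂ K c ∈ R) →
  ∃ (y : Fin (n + 1) → K) (D : Fin (n + 1) → Derivation ℂ K K) (J : Finset (Fin (n + 1)))
    (P : Fin (n + 1) → Pl K), Fr y D ∧ (∀ j, y j ∈ R) ∧
    (∀ j ∈ J, kap y (P j) = 0 ∧ ∀ i, (P j).ord (y i) = if i = j then 1 else 0) ∧
    ∀ f, f ∈ S ∨ f = jac D x → f ≠ 0 → f / ∏ j ∈ J, y j ^ (P j).ord f ∈ R ∧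
      (∏ j ∈ J, y j ^ (P j).ord f) / f ∈ R

/-- **BM**: charts of bounded size for a bounded log canonical form -/
def BM : Prop := ∀ (n N : ℕ) (V : ℝ), ∃ e : ℕ, ForN n fun K _ _ => ∀ (S : Finset K)
  (x : Fin (n + 1) → K) (φ : K), 1 ∈ S → IntermediateField.adjoin ℂ (S : Set K) = ⊤ →
  vol (n + 1) (mx S) ≤ V → AlgebraicIndependent ℂ x → (∀ a, x a ∈ S) → φ ≠ 0 → φ⁻¹ ∈ S →
  (∀ P : Pl K, 0 ≤ (P.ord φ : ℝ) + N * (kap x P + 1)) → ∀ E, ∃ y F, Cht e N S x φ E y F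

/-- **CORE**: a bounded lc complement bounds all thresholds -/
def CORE : Prop := ∀ (n N : ℕ) (ε V : ℝ), 0 < N → 0 < ε → ∃ C : ℝ, 0 < C ∧ ForN n fun K _ _ =>
  ∀ (Λ β G₀ Γ : BD K) (g : K), Smp Λ → Big Λ → Dsc Λ β → Dsc Λ G₀ → Nef β → Bir β → 0 ≤ G₀ →
    Nef G₀ → vol (n + 1) (β + G₀) ≤ V → LcC n N Γ All g →
    (∀ P, On n Λ P → N * (cn K (n + 1) P - G₀ P) ≤ P.ord g) → CarQ Γ → Smp (-Γ) →
    Psef (β + Γ) → ELc n ε Γ All →
    ∀ (G : BD K) (c : ℝ), 0 < c → 0 ≤ G → Psef (c • β - G) → ∀ E, G E ≤ C * c * ld (n + 1) Γ E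

end Vale.Agent.P283B.Vo
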