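import Vale.Agent.P283B.VOL.Sz

/-!
# P283B, block VOL: the global log canonical threshold
-/

set_option linter.unusedVariables false

open Set

noncomputable section

namespace Vale.Agent.P283B.Vo

open P287D

theorem salpha_of (hM : MOD) (hI : INT) (hC : CORE) : SALPHA := fun n _ _ _ hF hE hV ε q hε hq => by
  obtain ⟨N, hN, HF⟩ := hF ε q hε hq
  obtain ⟨M, M0, HE⟩ := Vk.bir_lf hE hε hq
  obtain ⟨v, HV⟩ := hV ε q hε hq
  obtain ⟨C, C0, HC⟩ := hC n N ε (M ^ (n + 1) * v) hN hε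
  refine ⟨C⁻¹, inv_pos.2 C0, fun K _ _ hK Λ Γ G l r P => ?_⟩
  have M1 : (1 : ℝ) ≤ M := by exact_mod_cast M0
  have M2 : (0 : ℝ) < M := by exact_mod_cast M0
  obtain ⟨g, hg⟩ := HF K hK Λ Γ l
  have k := HC K hK Λ ((M : ℝ) • -Γ) 0 Γ g l.pr.smp l.pr.big (l.amp.dsc.smul _) (.zero l.pr.smp)
    (l.amp.nef.smul M2.le) (HE K hK Λ Γ l) le_rfl .zero (by
      rw [add_zero, (row_of hM hI hK).vol_smul _ l.amp.car]
      exact mul_le_mul_of_nonneg_left (HV K hK Λ Γ l) (by positivity)) hg (fun Q hQ => by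
      refine le_trans (mul_le_mul_of_nonneg_left ?_ N.cast_nonneg) (hg.1.2 Q trivial)
      have := l.pr.bdy Q hQ
      rw [dsc, Pi.sub_apply] at this
      rw [Pi.zero_apply]
      linarith) l.pr.rat l.amp.smp (by
      have := (l.amp.nef.smul (sub_nonneg.2 M1)).psef
      rwa [sub_smul, one_smul, sub_neg_eq_add] at this) l.elc G M⁻¹ (inv_pos.2 M2) r.nonneg (by
      rw [inv_smul_smul₀ M2.ne']
      exact (Eff.of_prn (neg_sub G (-Γ) ▸ neg_mem r.prn)).psef) P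
  rw [inv_mul_le_iff₀ C0]
  have A0 : 0 ≤ ld (n + 1) Γ P := hε.le.trans (l.elc P trivial)
  exact k.trans (by
    rw [mul_assoc]
    exact mul_le_mul_of_nonneg_left (mul_le_of_le_one_left A0 (inv_le_one_of_one_le₀ M1)) C0.le)

end Vale.Agent.P283B.Vo
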