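import Vale.Agent.P283B.VOL.Ri
import Vale.Agent.P283B.MONO.St

/-!
# P283B, block VOL: a bounded lc complement bounds all thresholds
-/

set_option linter.unusedVariables false
set_option linter.unusedSectionVars false

open Set Function MvPolynomial
open Vale.Agent.P297Z

noncomputable section

namespace Vale.Agent.P283B.Vo

open P287D P287D.Cb

/-- **RAT**: the members of a real linear system are generated by the sections -/
def RAT : Prop := ForS fun n K _ _ => ∀ (β G : BD K) (p : ℝ → BD K → Prop), CarQ β → p 0 0 →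
  (∀ a G b G', p a G → p b G' → p (a + b) (G + G')) →
  (∀ a G (c : ℝ), 0 ≤ c → p a G → p (c * a) (c • G)) →
  (∀ (m : ℕ) (w : K), w ≠ 0 → Sec ((m : ℝ) • β) w → p m (dv w + (m : ℝ) • β)) → Rep β G → p 1 G

section one

variable {K : Type} [Field K] [Algebra ℂ K] {n : ℕ} {y : Fin n → K} {P E : Pl K} {f g F h : K}
  {r s : ℝ} {p : MvPolynomial (Fin n) ℂ} {b : ℕ → MvPolynomial (Fin n) ℂ} {d δ e : ℕ}

theorem sub_mul' (a : f ∈ P.sub r) (c : g ∈ P.sub s) : f * g ∈ P.sub (r + s) := by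
  by_cases f0 : f = 0
  · exact Or.inl (by simp [f0])
  by_cases g0 : g = 0
  · exact Or.inl (by simp [g0])
  refine Or.inr ?_
  rw [Pl.ord_mul _ f0 g0]
  push_cast
  linarith [a.resolve_left f0, c.resolve_left g0]

theorem sub_pow' (a : f ∈ P.sub r) (m : ℕ) : f ^ m ∈ P.sub (m * r) := by
  induction m with
  | zero => exact Or.inr (by simp)
  | succ m ih =>
    rw [pow_succ, Nat.cast_succ, add_mul, one_mul]
    exact sub_mul' ih a

theorem sub_ord (P : Pl K) (f : K) : f ∈ P.sub (-P.ord f) := Or.inr (by simp)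

theorem one_hy (y : Fin n → K) : (1 : K) ∈ hy y := by
  classical
  unfold hy
  convert Finset.mem_insert_self _ _

theorem mem_hy : f ∈ hy y ↔ f = 1 ∨ ∃ j, y j = f := by
  simp [hy]

theorem hy_nonneg (y : Fin n → K) : 0 ≤ mx (hy y) := mx_nonneg (one_hy y)

theorem hy_nn (y : Fin n → K) (P : Pl K) : 0 ≤ mx (hy y) P := hy_nonneg y P

theorem hy_zero (hm : ∀ j, y j ∈ E.ring) : mx (hy y) E = 0 := by
  refine le_antisymm ?_ (hy_nonneg y E)
  have := E.mz_le (k := 0) ⟨1, one_hy y, one_ne_zero⟩ fun f hf _ => by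
    rcases mem_hy.1 hf with rfl | ⟨j, rfl⟩
    · simp
    · exact neg_nonpos.2 (Pl.ord_nonneg_of_mem _ (hm j))
  rw [mx_apply]
  exact_mod_cast this

theorem deg_le (hd : p.totalDegree ≤ d) {u : Fin n →₀ ℕ} (hu : u ∈ p.support) :
    ∑ j, (u j : ℝ) ≤ d := by
  have := (le_totalDegree hu).trans hd
  rw [Finsupp.sum_fintype _ _ (by simp)] at this
  exact_mod_cast this

theorem sub_aeval (h0 : ∀ j, y j ≠ 0) (hd : p.totalDegree ≤ d) :
    aeval y p ∈ P.sub (d * mx (hy y) P) := by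
  refine or_iff_not_imp_left.2 fun p0 => ?_
  obtain ⟨u, hu, k⟩ := low' h0 P p0
  have a : ∑ j, -mx (hy y) P * u j ≤ ∑ j, (P.ord (y j) : ℝ) * u j :=
    Finset.sum_le_sum fun j _ => mul_le_mul_of_nonneg_right (by
      have := dv_add_mx_nonneg (mem_hy.2 (Or.inr ⟨j, rfl⟩)) (h0 j) P
      rw [Pi.add_apply, dv_apply, Pi.zero_apply] at this
      linarith) (Nat.cast_nonneg _)
  rw [← Finset.mul_sum] at a
  nlinarith [deg_le hd hu, hy_nn y P]

theorem int_fy (hK : FF K n) (hy : AlgebraicIndependent ℂ y) (F : K) : IsIntegral (fy y) F :=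
  have := hK.fin hy
  Algebra.IsIntegral.isIntegral F

theorem dg_pos (hK : FF K n) (hy : AlgebraicIndependent ℂ y) (F : K) : 0 < dg y F :=
  minpoly.natDegree_pos (int_fy hK hy F)

theorem dg_le (hK : FF K n) (hy : AlgebraicIndependent ℂ y) (F : K) :
    dg y F ≤ Module.finrank (fy y) K :=
  have := hK.fin hy
  minpoly.natDegree_le F

theorem Mp.sum (m : Mp y F b) : ∑ i ∈ Finset.range (dg y F + 1), aeval y (b i) * F ^ i = 0 := by
  have := minpoly.aeval (fy y) F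
  rw [Polynomial.aeval_eq_sum_range] at this
  rw [← this]
  exact Finset.sum_congr rfl fun i _ => by rw [← m i, Algebra.smul_def]; rfl

theorem Mp.top (m : Mp y F b) (hF : IsIntegral (fy y) F) : aeval y (b (dg y F)) = 1 := by
  rw [← m, dg, (minpoly.monic hF).coeff_natDegree]
  rfl

theorem Mp.ne (m : Mp y F b) (hF : IsIntegral (fy y) F) (h0 : F ≠ 0) : aeval y (b 0) ≠ 0 := by
  rw [← m]
  exact fun e => minpoly.coeff_zero_ne_zero hF h0 (Subtype.ext e)

/-- the Newton polygon -/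
theorem Mp.np (m : Mp y F b) (hF : IsIntegral (fy y) F) (h0 : F ≠ 0) (E : Pl K) :
    ∃ i < dg y F, aeval y (b i) ≠ 0 ∧
      (E.ord (aeval y (b i)) : ℝ) ≤ (dg y F - i : ℕ) * E.ord F := by
  by_contra! c
  have s := m.sum
  rw [Finset.sum_range_succ, m.top hF, one_mul, add_eq_zero_iff_neg_eq] at s
  have k : F ^ dg y F ∈ E.sub (-(dg y F * E.ord F + 1)) := by
    rw [← s]
    refine neg_mem (Submodule.sum_mem _ fun i hi => ?_)
    by_cases z : aeval y (b i) = 0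
    · exact Or.inl (by simp [z])
    have hi' := Finset.mem_range.1 hi
    have a := c i hi' z
    have a' : ((dg y F - i : ℕ) : ℤ) * E.ord F + 1 ≤ E.ord (aeval y (b i)) := by
      have : ((dg y F - i : ℕ) : ℤ) * E.ord F < E.ord (aeval y (b i)) := by exact_mod_cast a
      omega
    have a'' := Int.cast_le (R := ℝ).2 a'
    refine Or.inr ?_
    rw [Pl.ord_mul _ z (pow_ne_zero _ h0), Pl.ord_pow]
    push_cast [Nat.cast_sub hi'.le] at a'' ⊢
    linarith
  have := k.resolve_left (pow_ne_zero _ h0)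
  rw [Pl.ord_pow] at this
  push_cast at this
  linarith

/-- the norm is a multiple of the function -/
theorem Mp.norm (m : Mp y h b) (h0 : ∀ j, y j ≠ 0)
    (hd : ∀ i, (b i).totalDegree ≤ (dg y h - i) * δ) (hh : h ∈ P.sub (δ * mx (hy y) P))
    (hg : h * g ∈ P.sub r) : aeval y (b 0) * g ∈ P.sub (r + (dg y h - 1 : ℕ) * δ * mx (hy y) P) := by
  have s := m.sum
  rw [Finset.sum_range_succ', pow_zero, mul_one, add_eq_zero_iff_neg_eq] at s
  rw [← s, neg_mul, Finset.sum_mul]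
  refine neg_mem (Submodule.sum_mem _ fun i hi => ?_)
  have hi' := Finset.mem_range.1 hi
  have k := sub_mul' (sub_mul' (sub_aeval (P := P) h0 (hd (i + 1))) (sub_pow' hh i)) hg
  rw [pow_succ, show aeval y (b (i + 1)) * (h ^ i * h) * g = aeval y (b (i + 1)) * h ^ i * (h * g)
    by ring]
  refine sub_mono k (le_of_eq ?_)
  push_cast [Nat.cast_sub (show i + 1 ≤ dg y h from hi'), Nat.cast_sub (show 1 ≤ dg y h by omega)]
  ring

theorem sec_nat {β : BD K} {m : ℕ} : Sec ((m : ℝ) • β) f ↔ ∀ P : Pl K, f ∈ P.sub (m * β P) :=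
  sec_iff

theorem wt_le {w : Fin n → ℝ} {η : ℝ} (hw : ∀ j, w j ≤ η) (h0 : 0 ≤ η) (hd : p.totalDegree ≤ d)
    {u : Fin n →₀ ℕ} (hu : u ∈ p.support) : ∑ j, w j * u j ≤ η * d :=
  (Finset.sum_le_sum fun j _ => mul_le_mul_of_nonneg_right (hw j) (Nat.cast_nonneg _)).trans
    (by rw [← Finset.mul_sum]; exact mul_le_mul_of_nonneg_left (deg_le hd hu) h0)

end one

section two

variable {K : Type} [Field K] [Algebra ℂ K] {n : ℕ} {y : Fin (n + 1) → K} {E : Pl K}
  {h G₀ : K} {δ e : ℕ} {β G : BD K}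

/-- a section of a multiple which vanishes only where the given member vanishes -/
theorem sect (hR : RAT) (hK : FF K (n + 1)) (hβ : CarQ β) (hG : Rep β G) {T : Set (Pl K)}
    (hT : ∀ P ∈ T, G P = 0) : ∃ (m : ℕ) (w : K), 0 < m ∧ w ≠ 0 ∧ Sec ((m : ℝ) • β) w ∧
      ∀ P ∈ T, (P.ord w : ℝ) + m * β P = 0 := by
  refine (hR n K hK β G (fun a G => 0 ≤ a ∧ 0 ≤ G ∧ (0 < a → (∀ P ∈ T, G P = 0) →
    ∃ (m : ℕ) (w : K), 0 < m ∧ w ≠ 0 ∧ Sec ((m : ℝ) • β) w ∧
      ∀ P ∈ T, (P.ord w : ℝ) + m * β P = 0)) hβ ⟨le_rfl, le_rfl, fun a => absurd a (lt_irrefl _)⟩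
    (fun a G b G' x z => ⟨add_nonneg x.1 z.1, add_nonneg x.2.1 z.2.1, fun c d => ?_⟩)
    (fun a G c hc x => ⟨mul_nonneg hc x.1, smul_nonneg hc x.2.1, fun u v => ?_⟩)
    (fun m w w0 hw => ⟨Nat.cast_nonneg m, (hw.rep w0).nonneg, fun u v =>
      ⟨m, w, by exact_mod_cast u, w0, hw, v⟩⟩) hG).2.2 one_pos hT
  · have k : ∀ P ∈ T, G P = 0 ∧ G' P = 0 := fun P hP =>
      (add_eq_zero_iff_of_nonneg (x.2.1 P) (z.2.1 P)).1 (d P hP)
    by_cases a0 : 0 < a
    · exact x.2.2 a0 fun P hP => (k P hP).1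
    · exact z.2.2 (by linarith) fun P hP => (k P hP).2
  · exact x.2.2 (pos_of_mul_pos_right u hc) fun P hP =>
      (mul_eq_zero.1 (v P hP)).resolve_left (pos_of_mul_pos_left u x.1).ne'

/-- the size of a chart at `E` -/
def sz (y : Fin (n + 1) → K) (E : Pl K) : ℝ := ∑ j, (E.ord (y j) : ℝ) + (n + 1) * al y E

theorem iz0 (h3 : NP3) (hK : FF K (n + 1)) (hi : AlgebraicIndependent ℂ y)
    (hm : ∀ j, y j ∈ E.ring) (he : Module.finrank (fy y) K ≤ e) (h0 : h ≠ 0)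
    (hh : Sec ((δ : ℝ) • mx (hy y)) h) : (E.ord h : ℝ) ≤ δ * (e * sz y E) := by
  obtain ⟨b, m, hd⟩ := h3 n K hK y δ h hi hh
  have p0 := m.ne (int_fy hK hi h) h0
  have k := m.norm (g := 1) hi.ne_zero hd (sec_nat.1 hh E) (by rw [mul_one]; exact sub_ord E h)
  rw [mul_one, hy_zero hm, mul_zero, add_zero] at k
  obtain ⟨u, hu, -⟩ := low' hi.ne_zero E p0
  have d0 : (b 0).totalDegree ≤ e * δ :=
    (hd 0).trans (Nat.mul_le_mul_right _ ((dg_le hK hi h).trans he))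
  have w : ∀ j, (0 : ℝ) ≤ E.ord (y j) := fun j => by
    exact_mod_cast Pl.ord_nonneg_of_mem _ (hm j)
  have k1 := ri' hK hi E d0 hu
  have k2 := wt_le (fun j => Finset.single_le_sum (fun j _ => w j) (Finset.mem_univ j))
    (Finset.sum_nonneg fun j _ => w j) d0 hu
  rw [sz]
  push_cast at k1 k2
  linarith [k.resolve_left p0]

/-- **IZ** -/
theorem iz (hR : RAT) (h3 : NP3) (hK : FF K (n + 1)) (hi : AlgebraicIndependent ℂ y)
    (hm : ∀ j, y j ∈ E.ring) (he : Module.finrank (fy y) K ≤ e) {c : ℝ} (hc : 0 < c)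
    (hG : Rep (c • mx (hy y)) G) : G E ≤ c * (e * sz y E) := by
  have r := hG.smul (inv_nonneg.2 hc.le)
  rw [inv_smul_smul₀ hc.ne'] at r
  have k := hR n K hK _ _ (fun a G => G E ≤ a * (e * sz y E)) (carQ_mx _) (by simp)
    (fun a G b G' x z => by rw [Pi.add_apply, add_mul]; exact add_le_add x z)
    (fun a G c hc x => by rw [mul_assoc]; exact mul_le_mul_of_nonneg_left x hc)
    (fun m w w0 hw => by
      rw [Pi.add_apply, Pi.smul_apply, hy_zero hm, smul_zero, add_zero]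
      exact iz0 h3 hK hi hm he w0 hw) r
  rw [one_mul] at k
  exact (inv_mul_le_iff₀ hc).1 k

/-- what MW says about the weights `w` -/
structure Mw (y : Fin (n + 1) → K) (w : Fin (n + 1) → ℕ) (T : Set (Pl K)) (e : Pl K → ℝ) :
    Prop where
  pl : ∀ P ∈ T, al y P = 0 ∧ 0 < e P ∧ e P ≤ Module.finrank (fy y) K ∧
    ∀ j, (P.ord (y j) : ℝ) = e P * w j
  co : ∀ (F : K) (b : ℕ → MvPolynomial (Fin (n + 1)) ℂ) (c : ℝ), Mp y F b →
    (∀ P ∈ T, c * e P ≤ P.ord F) → ∀ i, ∀ u ∈ (b i).support,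
      (dg y F - i : ℕ) * (c - ∑ j, (w j : ℝ)) ≤ ∑ j, (w j : ℝ) * u j

/-- the comparison of `E` with the places over a monomial valuation -/
theorem lip (h3 : NP3) (hK : FF K (n + 1)) (hi : AlgebraicIndependent ℂ y)
    (he : Module.finrank (fy y) K ≤ e) {w : Fin (n + 1) → ℕ} {T : Set (Pl K)} {ρ : Pl K → ℝ}
    (M : Mw y w T ρ) (h0 : h ≠ 0) (g0 : G₀ ≠ 0) (hh : Sec ((δ : ℝ) • mx (hy y)) h)
    (hg : Sec ((δ : ℝ) • mx (hy y)) (h * G₀)) {γ s η : ℝ} (hγ : 0 ≤ γ)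
    (hT : ∀ P ∈ T, γ * e ≤ P.ord G₀) (hs : 0 ≤ s)
    (hη : ∀ j, |s * E.ord (y j) - w j| ≤ η) :
    γ - ∑ j, (w j : ℝ) ≤ s * (E.ord G₀ + (n + 1) * (e * δ) * al y E) + 2 * η * (e * δ) := by
  obtain ⟨b, m, hd⟩ := h3 n K hK y δ h hi hh
  have p0 := m.ne (int_fy hK hi h) h0
  have me := (dg_le hK hi h).trans he
  have m1 := dg_pos hK hi h
  have η0 : 0 ≤ η := (abs_nonneg _).trans (hη 0)
  have d0 : (b 0).totalDegree ≤ e * δ := (hd 0).trans (Nat.mul_le_mul_right _ me)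
  have s1 : Sec (((e * δ : ℕ) : ℝ) • mx (hy y)) (aeval y (b 0) * G₀) := sec_nat.2 fun P => by
    refine sub_mono (m.norm hi.ne_zero hd (sec_nat.1 hh P) (sec_nat.1 hg P)) ?_
    have : (dg y h : ℝ) ≤ e := by exact_mod_cast me
    have a := mul_nonneg (Nat.cast_nonneg (α := ℝ) δ) (hy_nn y P)
    push_cast [Nat.cast_sub (show 1 ≤ dg y h from m1)]
    nlinarith
  have f0 := mul_ne_zero p0 g0
  obtain ⟨b', m', hd'⟩ := h3 n K hK y _ _ hi s1
  obtain ⟨u₀, hu₀, mn⟩ := (b 0).support.exists_min_image (fun u => ∑ j, (w j : ℝ) * u j)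
    (support_nonempty.2 fun z => p0 (by rw [z, map_zero]))
  obtain ⟨i, hi', c0, c1⟩ := m'.np (int_fy hK hi _) f0 E
  obtain ⟨u, hu, c2⟩ := low' hi.ne_zero E c0
  have c3 := M.co _ b' (∑ j, (w j : ℝ) * u₀ j + γ) m' (fun P hP => by
    obtain ⟨-, a1, a2, a3⟩ := M.pl P hP
    obtain ⟨v, hv, a4⟩ := low' hi.ne_zero P p0
    have a5 := mul_le_mul_of_nonneg_left (mn v hv) a1.le
    have a6 : ρ P ≤ e := a2.trans (by exact_mod_cast he)
    simp only [a3, mul_assoc, ← Finset.mul_sum] at a4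
    rw [Pl.ord_mul _ p0 g0]
    push_cast
    nlinarith [hT P hP]) i u hu
  have c4 := wt_le (w := fun j => w j - s * E.ord (y j))
    (fun j => by linarith [(abs_le.1 (hη j)).1]) η0 (hd' i) hu
  have c5 := wt_le (fun j => (abs_le.1 (hη j)).2) η0 d0 hu₀
  have c6 := ri' hK hi E d0 hu₀
  simp only [sub_mul, Finset.sum_sub_distrib, mul_assoc, ← Finset.mul_sum] at c4 c5
  rw [Pl.ord_mul _ p0 g0] at c1
  have t : (0 : ℝ) < (dg y (aeval y (b 0) * G₀) - i : ℕ) := by exact_mod_cast Nat.sub_pos_of_lt hi'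
  rw [Nat.cast_mul] at c4
  generalize ((dg y (aeval y (b 0) * G₀) - i : ℕ) : ℝ) = t' at *
  push_cast at c1 c4 c5 c6
  refine le_of_mul_le_mul_left ?_ t
  have c7 := mul_le_mul_of_nonneg_left (c2.trans c1) hs
  have c8 := mul_le_mul_of_nonneg_left (mul_le_mul_of_nonneg_left c6 hs) t.le
  have c9 := mul_le_mul_of_nonneg_left c5 t.le
  linarith

theorem lip' (h3 : NP3) (hK : FF K (n + 1)) (hi : AlgebraicIndependent ℂ y)
    (he : Module.finrank (fy y) K ≤ e) {w : Fin (n + 1) → ℕ} {T : Set (Pl K)} {ρ : Pl K → ℝ}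
    (M : Mw y w T ρ) (h0 : h ≠ 0) (g0 : G₀ ≠ 0) (hh : Sec ((δ : ℝ) • mx (hy y)) h)
    (hg : Sec ((δ : ℝ) • mx (hy y)) (h * G₀)) {γ s η : ℝ} (hγ : 0 ≤ γ)
    (hT : ∀ P ∈ T, γ * e ≤ P.ord G₀) (hs : 0 ≤ s)
    (hη : ∀ j, |s * E.ord (y j) - w j| ≤ η) :
    γ ≤ s * (E.ord G₀ + (n + 1) * (e * δ) * al y E) + 2 * η * (e * δ) := by
  by_contra! c
  obtain ⟨L, hL⟩ := exists_lt_nsmul (sub_pos.2 c) (∑ j, (w j : ℝ))
  have a := hh.pow L
  have b := hg.pow L
  rw [smul_smul, ← Nat.cast_mul] at a b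
  rw [mul_pow] at b
  have k := lip h3 hK hi he M (pow_ne_zero L h0) (pow_ne_zero L g0) a b (γ := L * γ)
    (mul_nonneg L.cast_nonneg hγ) (fun P hP => by
      rw [Pl.ord_pow, mul_assoc]
      push_cast
      exact mul_le_mul_of_nonneg_left (hT P hP) L.cast_nonneg) hs hη
  rw [Pl.ord_pow] at k
  rw [nsmul_eq_mul] at hL
  push_cast at k
  linarith

end two

/-- **LD**: the orders of the coordinates are bounded by the log discrepancy -/
theorem ldb (hR : RAT) (h3 : NP3) (hW : MW) (hD : Mono.DIR) (n N e c : ℕ) {ε : ℝ} (hN : 0 < N)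
    (e0 : 0 < e) (hε : 0 < ε) : ∃ C : ℝ, 0 < C ∧ ForN n fun K _ _ => ∀ (y : Fin (n + 1) → K)
    (E : Pl K) (Γ : BD K) (F h : K) (m : ℕ), AlgebraicIndependent ℂ y → (∀ j, y j ∈ E.ring) →
    Module.finrank (fy y) K ≤ e → CarQ Γ → Smp (-Γ) → ELc n ε Γ All → F ≠ 0 →
    (∀ P : Pl K, (P.ord F : ℝ) = N * (cn K (n + 1) P + 1 - al y P)) → 0 < m → h ≠ 0 →
    Sec ((m : ℝ) • ((c : ℝ) • mx (hy y) + (N : ℝ) • Γ)) h →
    Sec (((m * c : ℕ) : ℝ) • mx (hy y)) (h * F ^ m) → al y E ≤ ld (n + 1) Γ E →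
    ∑ j, (E.ord (y j) : ℝ) ≤ C * ld (n + 1) Γ E := by
  have N1 : (0 : ℝ) < N := by exact_mod_cast hN
  have e1 : (0 : ℝ) < e := by exact_mod_cast e0
  have γ0 : 0 < N * ε / e := by positivity
  obtain ⟨η, η0, η1, η2⟩ : ∃ η : ℝ, 0 < η ∧ (n + 2) * η ≤ 1 ∧ (4 * e * c + 1) * η ≤ N * ε / e :=
    ⟨min (1 / (n + 2)) (N * ε / e / (4 * e * c + 1)), by positivity,
      (le_div_iff₀' (by positivity)).1 (min_le_left _ _),
      (le_div_iff₀' (by positivity)).1 (min_le_right _ _)⟩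
  obtain ⟨Q, hQ⟩ := hD (n + 1) η η0
  refine ⟨2 * (Q + 1) * (N + (n + 1) * e * c) / (N * ε / e), by positivity,
    fun K _ _ hK y E Γ F h m hi hm he hΓ sΓ el F0 oF m0 h0 s1 s2 hA => ?_⟩
  have A0 : 0 < ld (n + 1) Γ E := hε.trans_le (el E trivial)
  have w0 : ∀ j, (0 : ℝ) ≤ E.ord (y j) := fun j => by
    exact_mod_cast Pl.ord_nonneg_of_mem _ (hm j)
  rcases (Finset.sum_nonneg fun j (_ : j ∈ Finset.univ) => w0 j).eq_or_lt with W0 | W0
  · rw [← W0]
    positivity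
  generalize hW' : ∑ j, (E.ord (y j) : ℝ) = W at W0 ⊢
  obtain ⟨k, z, k0, kQ, hz⟩ := hQ fun j => E.ord (y j) / W
  have k1 : (1 : ℝ) ≤ k := by exact_mod_cast k0
  have n0 : (0 : ℝ) ≤ n := n.cast_nonneg
  have zn : ∀ j, ((z j).toNat : ℝ) = z j := fun j => by
    have a := (abs_le.1 (hz j)).2
    have b : 0 ≤ k * (E.ord (y j) / W) := by have := w0 j; positivity
    have : (-1 : ℤ) < z j := by
      have : (-1 : ℝ) < z j := by nlinarith
      exact_mod_cast this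
    rw [← Int.cast_natCast, Int.toNat_of_nonneg (by omega)]
  have hη : ∀ j, |k / W * E.ord (y j) - (z j).toNat| ≤ η := fun j => by
    rw [zn, div_mul_eq_mul_div, mul_div_assoc]
    exact hz j
  obtain ⟨T, ρ, fT, M1, M2⟩ := hW n K hK y (fun j => (z j).toNat) hi fun z0 => by
    have a := Finset.sum_le_sum fun j (_ : j ∈ Finset.univ) => (abs_le.1 (hη j)).2
    have b : ∀ j, (z j).toNat = 0 := congrFun z0
    simp only [b, Nat.cast_zero, sub_zero, ← Finset.mul_sum, hW', Finset.sum_const,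
      Finset.card_univ, Fintype.card_fin, nsmul_eq_mul, div_mul_cancel₀ _ W0.ne'] at a
    push_cast at a
    linarith
  obtain ⟨G, rG, hG⟩ := sΓ.exists_rep fT
  obtain ⟨r, f, r0, f0, sf, of⟩ := sect hR hK hΓ.neg rG hG
  have fn := pow_ne_zero (N * m) f0
  have g0 := div_ne_zero (pow_ne_zero (m * r) F0) fn
  have og : ∀ P : Pl K, (P.ord (F ^ (m * r) / f ^ (N * m)) : ℝ) =
      m * r * (N * (ld (n + 1) Γ P - al y P)) - N * m * (P.ord f + r * (-Γ) P) := fun P => by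
    rw [Pl.ord_div _ (pow_ne_zero _ F0) fn, Pl.ord_pow, Pl.ord_pow, ld, dsc]
    push_cast
    rw [oF, Pi.sub_apply, Pi.neg_apply]
    ring
  have mr : (0 : ℝ) < m * r := by positivity
  have key := lip' (E := E) (δ := r * (m * c)) h3 hK hi he ⟨M1, M2⟩
    (mul_ne_zero (pow_ne_zero r h0) fn) g0 (by
      have := (s1.pow r).mul (sf.pow (N * m))
      convert this using 1
      push_cast
      module) (by
      have := s2.pow r
      rw [smul_smul, ← Nat.cast_mul] at this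
      convert this using 1
      rw [mul_assoc, mul_div_cancel₀ _ fn, mul_pow, pow_mul])
    (γ := m * r * (N * ε / e)) (by positivity) (fun P hP => by
      rw [og, of P hP, (M1 P hP).1, mul_assoc, div_mul_cancel₀ _ e1.ne', mul_zero, sub_zero,
        sub_zero]
      exact mul_le_mul_of_nonneg_left (mul_le_mul_of_nonneg_left (el P trivial) N1.le) mr.le)
    (s := k / W) (by positivity) hη
  have a0 := al_nonneg hK hi E
  have b0 : 0 ≤ (E.ord f : ℝ) + r * (-Γ) E := sf.resolve_left f0 E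
  have b1 : (E.ord (F ^ (m * r) / f ^ (N * m)) : ℝ) + (n + 1) * (e * (r * (m * c) : ℕ)) * al y E ≤
      m * r * ((N + (n + 1) * e * c) * ld (n + 1) Γ E) := by
    rw [og]
    push_cast
    have a := mul_le_mul_of_nonneg_left hA (show 0 ≤ (n + 1) * (e * (r * (m * c) : ℝ)) by positivity)
    have b := mul_nonneg (mul_nonneg N1.le m.cast_nonneg) b0
    have d := mul_nonneg (mul_nonneg mr.le N1.le) a0
    linarith
  have b2 := key.trans (add_le_add_left (mul_le_mul_of_nonneg_left b1 (by positivity)) _)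
  have b3 : N * ε / e ≤ 2 * (k / W * ((N + (n + 1) * e * c) * ld (n + 1) Γ E)) := by
    refine le_of_mul_le_mul_left ?_ mr
    have := mul_le_mul_of_nonneg_left η2 mr.le
    have := mul_pos mr η0
    push_cast at b2
    linarith
  rw [div_mul_eq_mul_div, le_div_iff₀ γ0]
  have b4 : (k : ℝ) ≤ Q + 1 := by exact_mod_cast kQ.trans Q.le_succ
  have b5 := mul_le_mul_of_nonneg_left b3 W0.le
  rw [show ∀ a : ℝ, W * (2 * (k / W * a)) = 2 * k * a from fun a => by field_simp] at b5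
  have b6 : 0 ≤ (N + (n + 1) * e * c) * ld (n + 1) Γ E := by positivity
  nlinarith

theorem core_of (hR : RAT) (h3 : NP3) (hW : MW) (hD : Mono.DIR) (hS : SZ) (hB : BM) : CORE :=
  fun n N ε V hN hε => by
  obtain ⟨V₁, c₁, HS⟩ := hS n N V hN
  obtain ⟨e, HB⟩ := hB n N V₁
  obtain ⟨C, C0, HC⟩ := ldb hR h3 hW hD n N (e + 1) (e + N * c₁ * e) hN e.succ_pos hε
  refine ⟨(c₁ * e + 1) * ((e + 1) * (C + (n + 1))), by positivity, fun K _ _ hK Λ β G₀ Γ g sΛ bΛ
    dβ dG nβ bβ G0 nG hV lc hg hΓ sΓ ps el G c c0 hG pG E => ?_⟩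
  have g0 := lc.1.1
  have N1 : (0 : ℝ) < N := by exact_mod_cast hN
  obtain ⟨S, x, j, j0, kx, S1, St, Sv, xi, xS, gS, bS⟩ :=
    HS K hK Λ β G₀ g sΛ bΛ dβ dG nβ bβ G0 nG hV g0 hg
  have oφ : ∀ P : Pl K, (P.ord (g * j ^ N)⁻¹ : ℝ) + N * (kap x P + 1) =
      N * (cn K (n + 1) P + 1) - P.ord g := fun P => by
    rw [Pl.ord_inv, Pl.ord_mul _ g0 (pow_ne_zero _ j0), Pl.ord_pow, kx, Pi.add_apply, dv_apply]
    push_cast
    ring
  obtain ⟨y, F, ch⟩ := HB K hK S x (g * j ^ N)⁻¹ S1 St Sv xi xS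
    (inv_ne_zero (mul_ne_zero g0 (pow_ne_zero _ j0))) (by rwa [inv_inv])
    (fun P => by rw [oφ]; exact sub_nonneg.2 (lc.2 P trivial)) E
  have oF : ∀ P : Pl K, (P.ord (F * g) : ℝ) = N * (cn K (n + 1) P + 1 - al y P) := fun P => by
    rw [Pl.ord_mul _ ch.ne g0, Int.cast_add, ch.eq]
    linarith [oφ P]
  have hA : al y E ≤ ld (n + 1) Γ E := by
    have a : (0 : ℝ) ≤ E.ord F := by exact_mod_cast Pl.ord_nonneg_of_mem _ ch.reg
    have b := oF E
    rw [Pl.ord_mul _ ch.ne g0, Int.cast_add] at b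
    refine le_of_mul_le_mul_left ?_ N1
    rw [ld, dsc, Pi.sub_apply]
    linarith [lc.1.2 E trivial]
  have e1 : Eff ((e : ℝ) • mx (hy y) - mx S - pld F) := by
    classical
    rw [← mx_pld]
    convert ch.big
  have e2 : Eff ((e : ℝ) • mx (hy y) - mx S) := e1.mono (sub_le_self _ (pld_nonneg F))
  obtain ⟨G₁, r₁⟩ : Eff (((e + N * c₁ * e : ℕ) : ℝ) • mx (hy y) + (N : ℝ) • Γ - pld F) := by
    have := ((e1.add (e2.smul (c := N * c₁) (by positivity))).add
      ((bS.add_psef ps).eff.smul N1.le)).add (eff_mx S)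
    convert this using 1
    push_cast
    module
  obtain ⟨m, h, m0, h0, sh, -⟩ := sect hR hK (((CarZ.carQ (CarZ.nsmul (mx_mem_CarZ _) _)).add
    (by simpa using hΓ.qsmul N)).sub (CarZ.carQ (pld_carZ F))) r₁ (T := ∅) (by simp)
  have sg : Sec ((N : ℝ) • -Γ) g := Or.inr fun P => by
    simpa [dv_apply] using lc.1.2 P trivial
  have re := ch.rk.trans e.le_succ
  have k := HC K hK y E Γ (F * g) h m ch.ind ch.mem re hΓ sΓ el (mul_ne_zero ch.ne g0) oF m0 h0
    (sh.mono (smul_le_smul_of_nonneg_left (sub_le_self _ (pld_nonneg F)) m.cast_nonneg)) (by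
      convert sh.mul (((sec_pld F).mul sg).pow m) using 1
      push_cast
      module) hA
  obtain ⟨G₂, r₂⟩ : Eff ((c * (c₁ * e + 1)) • mx (hy y) - G) := by
    have := (((bS.smul c0).add_psef pG).eff.add (e2.smul (c := c * c₁) (by positivity))).add
      ((eff_mx (hy y)).smul c0.le)
    convert this using 1
    module
  have r₃ := r₂.add (Rep.refl hG)
  rw [sub_add_cancel] at r₃
  have k1 := iz hR h3 hK ch.ind ch.mem re (by positivity) r₃
  have k2 : sz y E ≤ (C + (n + 1)) * ld (n + 1) Γ E := by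
    have := mul_le_mul_of_nonneg_left hA (show (0 : ℝ) ≤ n + 1 by positivity)
    rw [sz]
    linarith
  have k3 := mul_le_mul_of_nonneg_left k2 (show 0 ≤ c * (c₁ * e + 1) * (e + 1) by positivity)
  have k4 : 0 ≤ G₂ E := r₂.nonneg E
  rw [Pi.add_apply] at k1
  push_cast at k1
  linarith

end Vale.Agent.P283B.Vo
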