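import Vale.Agent.P283B.U.St
import Vale.Agent.P283B.VOL.Klt
import Vale.Agent.P283B.EB.Lst
import Vale.Agent.P287D.Gs.Ful
import Vale.Agent.P287D.In.Bas

/-!
# P283B, block VOL: boundedness (`SSA`) by a limit argument
-/

open Set Filter
open Vale.Agent.P297Z

noncomputable section

namespace Vale.Agent.P283B.Vs

open P287D Vk U

section one

variable {K : Type} [Field K] [Algebra ℂ K] {n : ℕ} {β A Z Λ Γ : BD K}

open Classical in
/-- the system `1, y` -/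
def hy {k : ℕ} (y : Fin k → K) : Finset K := insert 1 (Finset.univ.image y)

omit [Algebra ℂ K] in
theorem one_hy {k : ℕ} (y : Fin k → K) : (1 : K) ∈ hy y := by
  classical
  simp [hy]

omit [Algebra ℂ K] in
theorem mem_hy {k : ℕ} (y : Fin k → K) (i : Fin k) : y i ∈ hy y := by
  classical
  simp [hy]

theorem big_hy {k : ℕ} (hK : FF K k) {y : Fin k → K} (hy' : AlgebraicIndependent ℂ y) :
    Big (mx (hy y)) := by
  have := hK.fin hy'
  have e : IntermediateField.adjoin ℂ (range y) ≤ rts (hy y) :=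
    IntermediateField.adjoin_le_iff.2 fun _ ⟨i, hi⟩ => by
      simpa [hi] using div_mem_rts (mem_hy y i) (one_hy y)
  exact big_mx fun f => (IsAlgebraic.of_finite _ f).ringHom_of_comp_eq
    (IntermediateField.inclusion e).toRingHom (RingHom.id K)
    (IntermediateField.inclusion_injective _) rfl

theorem kap_hy {k : ℕ} (hK : FF K k) {y : Fin k → K} (hy' : AlgebraicIndependent ℂ y) (P : Pl K) :
    0 ≤ kap y P + (k + 1) * mx (hy y) P := by
  obtain ⟨a, ha, a0, ea⟩ := P.exists_mz ⟨1, one_hy y, one_ne_zero⟩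
  have m : ∀ g ∈ hy y, g / a ∈ P.ring := fun g hg => by
    by_cases g0 : g = 0
    · simp [g0]
    have := P.le_mz hg g0
    rw [← Pl.ord_nonneg_iff _ (div_ne_zero g0 a0), Pl.ord_div _ g0 a0]
    omega
  simpa [mx_apply, ea] using kap_div hK (f := y) one_ne_zero (by simpa using hy') P a0
    (m _ (one_hy y)) fun i => m _ (mem_hy y i)

theorem vol_res (hF : FFS) (hR : RES) (hV : VOL) (hK : FF K (n + 1)) (h : Nef A) {f : K}
    (f0 : f ≠ 0) (P : Pl K) : vol n (res P (A + dv f)) = vol n (res P A) := by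
  have a := hR.nef n K hK P A h
  rw [hR.add n K hK P A h.car _ (dv_mem_Car f), hR.pri n K hK P f f0]
  have b := a.add_prn (dv_mem_Prn (P.rd (f / P.t ^ P.ord f)))
  refine le_antisymm (hV.mono n _ (hF.rsd n K hK P) _ _ b a (Eff.of_prn ?_).psef)
    (hV.mono n _ (hF.rsd n K hK P) _ _ a b (Eff.of_prn ?_).psef)
  · simpa using dv_mem_Prn _
  · simpa using dv_mem_Prn _

open Classical in
/-- the reduced divisor of a finite set of primes -/
def ind (T : Finset (Pl K)) : BD K := fun Q => if Q ∈ T then 1 else 0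

theorem isB_ind (T : Finset (Pl K)) : IsB n (ind T) := fun _ _ =>
  T.finite_toSet.subset fun _ h => by_contra fun z => h.2 (if_neg z)

theorem I_ind (T : Finset (Pl K)) (A : BD K) :
    I (n + 1) K (Fin.cons (ind T) fun _ => A) = ∑ Q ∈ T, vol n (res Q A) := by
  rw [In.I_cons, finsum_eq_sum_of_support_subset (s := T) _ fun Q h => by_contra fun z =>
    h (by simp only [ind]; rw [if_neg (show Q ∉ T from z), zero_mul])]
  exact Finset.sum_congr rfl fun Q h => by simp only [ind]; rw [if_pos h, one_mul]; rfl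

theorem sum_le (h : In.Hy) (hK : FF K (n + 1)) (T : Finset (Pl K)) (hA : Nef A) (hβ : Nef β)
    (p : Psef (β - A)) {q : ℝ} (e : Psef (q • β - ind T)) (hq : 0 ≤ q) :
    ∑ Q ∈ T, vol n (res Q A) ≤ q * vol (n + 1) β := by
  have b := In.IsB.sub (In.IsB.smul (h.isb n K hK β hβ.car) q) (isB_ind T)
  have a := h.cons_nn' hK (h.rows hK) (b := fun _ => A) b e (fun _ => hA.car) fun P =>
    (h.rows hK P).nef _ fun _ => h.res_nef hK P hA
  have d := h.cons_add' hK (h.rows hK) (b := fun _ => A) b (isB_ind T) fun _ => hA.car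
  rw [sub_add_cancel, In.cons_smul, I_ind] at d
  have m := (h.row _ K hK).mono (a := Fin.cons β fun _ => A) (b := fun _ => β)
    (Fin.cases hβ fun _ => hA) (fun _ => hβ) (Fin.cases (by simpa using Psef.zero) fun _ => p)
  have := mul_le_mul_of_nonneg_left m hq
  unfold vol at *
  linarith

/-- the anticanonical model -/
theorem anti (hM : MOD) (hR : RES) (hN : NEG) (hE : EXTR) (h0 : FTM0) (hK : FF K (n + 1))
    (r : Rel n Λ ∅ Γ) {ε : ℝ} (e : ELc n ε Γ All) : ∃ G : BD K, LF n ε 1 (-G) G ∧ G ≤ Γ ∧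
      Bdy n Λ G ∧ ∀ P, On n (-G) P → On n Λ P ∧ G P = cn K (n + 1) P := by
  obtain ⟨Γ₀, c, k, b, n₀, b₀⟩ := r.ft.ex
  obtain ⟨c', n₁⟩ := r.nef
  simp only [mx_empty, smul_zero, zero_sub] at n₀ b₀ n₁
  obtain ⟨V, sV, bV, qV, dV, oV⟩ := hE n K hK Λ Γ₀ 0 ∅ r.pr.smp r.pr.big (by simpa using n₀) b k
    finite_empty (by simp)
  simp only [mem_empty_iff_false, or_false] at oV
  obtain ⟨κ, dκ, hκ⟩ := Gs.exists_hull hN hK sV qV (Gs.isb_fin hK hN sV bV (hM.isb n K hK).2.1)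
  have le : κ ≤ Γ := sub_nonneg.1 (Gs.det hN hK sV bV ((dV.trans r.pr.des).sub dκ) fun P o => by
    have := r.pr.bdy P ((oV P).1 o)
    rwa [Pi.sub_apply, hκ P o, sub_nonneg, ← sub_nonpos])
  obtain ⟨V', D, c'', f, -, h, qD, o, z⟩ := h0 n K hK V (-κ) ∅ 0 ⟨sV, bV, by simpa using Dsc.zero sV,
    Γ₀, 0, k, fun P o => b P ((oV P).1 o), by simpa using n₀, by simpa using b₀⟩ qV dκ.neg
    (Gs.carQ_of hN hK sV bV dκ fun P o => let ⟨z, hz⟩ := Cb.cn_int (n := n + 1) P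
      ⟨z, by rw [hκ P o, hz, Rat.cast_intCast]⟩).neg
    (by simpa using n₁.psef.mono (neg_le_neg le))
  have z' := (z c'' le_rfl).1
  have sD : Smp D := by simpa using z'.smp
  have val : ∀ P, On n V' P → D P = -cn K (n + 1) P := fun P p => by
    rw [h.2 P p, Pi.neg_apply, hκ P ((o P).1 p).1]
  have key : ∀ G : BD K, Nef (-G) → Bdy n Λ G → -G ≤ D := fun G a b => by
    obtain ⟨t, -, ht⟩ := h.1.neg.exists_add
    refine sub_nonpos.1 (hN.neg n K hK V' _ t f.smp f.big (sub_mem a.car sD.car) ?_ fun P p => ?_)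
    · simpa only [sub_eq_add_neg, add_assoc] using a.add (ht t le_rfl).nef
    · have := b P ((oV P).1 ((o P).1 p).1)
      simp only [dsc, Pi.sub_apply, Pi.neg_apply, val P p] at this ⊢
      linarith
  have on : ∀ P, On n D P → On n V' P := fun P p => (hR.on n K hK _ P f.smp).2
    ((hR.des n K hK _ _ P h.1).big ((hR.on n K hK _ P sD).1 p))
  have d0 : ∀ P, On n D P → dsc (n + 1) (-D) P = 0 := fun P p => by simp [dsc, val P (on P p)]
  have le' : -D ≤ Γ := neg_le.1 (key Γ n₁ r.pr.bdy)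
  refine ⟨-D, ?_, le', fun P p => ?_, fun P p => ?_⟩
  · rw [neg_neg]
    exact ⟨⟨sD, b₀.mono (key Γ₀ n₀ b), (Dsc.refl sD).neg, qD.neg, fun P p => (d0 P p).le⟩,
      fun P _ => (e P trivial).trans (by rw [ld_eq, ld_eq]; linarith [le' P]),
      fun P p _ => ⟨0, by simp [ld, d0 P p]⟩, by simpa using AmpOn.refl sD⟩
  · have := z'.nn P
    simp only [dsc, Pi.sub_apply, Pi.neg_apply, Pi.zero_apply, hκ P ((oV P).2 p)] at this ⊢
    linarith
  · rw [neg_neg] at p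
    exact ⟨(oV P).1 ((o P).1 (on P p)).1, by rw [Pi.neg_apply, val P (on P p), neg_neg]⟩

/-- bounded data: coordinates `y`, a klt form `φ`, and a form `ψ` for the system of `y` -/
structure Pp (n N m : ℕ) (v : ℝ) (Λ Γ : BD K) (S : Finset K) (y : Fin (n + 1) → K) (φ ψ : K)
    (T : Finset (Pl K)) : Prop where
  one : (1 : K) ∈ S
  gen : IntermediateField.adjoin ℂ (S : Set K) = ⊤
  vl : vol (n + 1) (mx S) ≤ v
  my : ∀ k, y k ∈ Submodule.span ℂ (S : Set K)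
  mφ : φ ∈ Submodule.span ℂ (S : Set K)
  mψ : ψ ∈ Submodule.span ℂ (S : Set K)
  ind : AlgebraicIndependent ℂ y
  klt : ∀ P : Pl K, (P.ord φ : ℝ) < N * (kap y P + 1)
  bφ : ∀ P, On n Λ P → N * kap y P ≤ P.ord φ
  bψ : ∀ P, On n Λ P → mx (hy y) P + m * kap y P ≤ P.ord ψ
  cov : ∀ Q, On n (mx (hy y)) Q → (On n Λ Q ∧ dsc (n + 1) Γ Q = 0) ∨ Q ∈ T
  deg : ∑ Q ∈ T, vol n (res Q (mx (hy y))) ≤ v

theorem prep (hH : In.Hy) (hF : FFS) (hM : MOD) (hR : RES) (hV : VOL) (hN : NEG) (hE : EXTR)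
    (h0 : FTM0) (hD : Eb.DEG n) (eb : EB n) (vb : VB n) (kl : KLT n) {ε : ℝ} {q : ℕ} (hε : 0 < ε)
    (hq : 0 < q) : ∃ (N m : ℕ) (v : ℝ), 0 < N ∧ 0 < m ∧ ForN n fun K _ _ => ∀ Λ Γ : BD K,
      Rel n Λ ∅ Γ → ELc n ε Γ All → Cf n Λ Γ (Frq q) All →
      ∃ S y φ ψ T, Pp n N m v Λ Γ S y φ ψ T := by
  classical
  obtain ⟨m, m0, hm⟩ := bir_lf eb hε one_pos
  obtain ⟨v, hv⟩ := vb ε 1 hε one_pos
  obtain ⟨N, N0, hk⟩ := kl ε 1 hε one_pos
  obtain ⟨c, hc⟩ := hD 1 one_pos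
  obtain ⟨a, ha⟩ : ∃ a : ℝ, a = (N + m + 1) * (n + 2) := ⟨_, rfl⟩
  have N1 : (0 : ℝ) < N := by positivity
  have m1 : (1 : ℝ) ≤ m := by exact_mod_cast m0
  have n2 : (0 : ℝ) ≤ n := n.cast_nonneg
  have a1 : 1 ≤ a := by nlinarith
  have q0 : (0 : ℝ) < q := by positivity
  refine ⟨N, m, (a ^ (n + 1) + |c| + q) * (m ^ (n + 1) * v), N0, m0, fun K _ _ hK Λ Γ r e cf => ?_⟩
  obtain ⟨G, l, le, bd, on⟩ := anti hM hR hN hE h0 hK r e
  obtain ⟨c', nΓ⟩ := r.nef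
  simp only [mx_empty, smul_zero, zero_sub] at nΓ
  have B := hm K hK _ G l
  obtain ⟨g, ⟨g0, g1⟩, g2⟩ := hk K hK _ G l
  obtain ⟨f₀, f, f0, s₀, s, hi⟩ := basis_of hK (bir_alg B)
  obtain ⟨j, j0, ej⟩ := Cb.kap_cn hK hi
  have sG := l.pr.smp
  set β : BD K := (m : ℝ) • -G with hβ
  have sβ : Smp β := sG.smul (by positivity)
  have βa : ∀ P, β P = -(m * G P) := fun P => by simp [hβ]
  have rw' := hH.row _ K hK
  have v0 : 0 ≤ vol (n + 1) β := rw'.nef _ fun _ => sβ.nef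
  have v1 : vol (n + 1) β ≤ m ^ (n + 1) * v := by
    rw [hβ, rw'.vol_smul _ sG.car]
    exact mul_le_mul_of_nonneg_left (hv K hK _ G l) (by positivity)
  set y : Fin (n + 1) → K := fun i => f i / f₀ with hy'
  set A := mx (insert f₀ (Finset.univ.image f)) with hA
  have nz : Nz (insert f₀ (Finset.univ.image f)) := ⟨f₀, Finset.mem_insert_self _ _, f0⟩
  have Aβ : A ≤ β := mx_le nz fun x hx => by
    rcases Finset.mem_insert.1 hx with rfl | hx
    · exact s₀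
    · obtain ⟨i, -, rfl⟩ := Finset.mem_image.1 hx
      exact s i
  have eY : mx (hy y) = A + dv f₀ := by
    have := mx_image_mul nz (inv_ne_zero f0)
    rw [dv_inv, sub_neg_eq_add, Finset.image_insert, mul_inv_cancel₀ f0, Finset.image_image] at this
    simpa only [hy, hy', div_eq_mul_inv, Function.comp_def] using this
  have bA : Big A := (big_hy hK hi).congr (by simpa [eY] using dv_mem_Prn f₀)
  have vr := vol_res hF hR hV hK (nef_mx (insert f₀ (Finset.univ.image f))) f0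
  rw [← hA, ← eY] at vr
  have β0 : 0 ≤ β + dv f₀ := add_comm β _ ▸ s₀.resolve_left f0
  have kj : ∀ P : Pl K, kap y P = cn K (n + 1) P + P.ord j := fun P => congrFun ej P
  have kp : ∀ P : Pl K, 0 ≤ cn K (n + 1) P + P.ord j + (n + 2) * (β P + P.ord f₀) := fun P => by
    have x := kap_hy hK hi P
    have := mul_le_mul_of_nonneg_left (Aβ P) (by positivity : (0 : ℝ) ≤ n + 2)
    rw [kj, eY, Pi.add_apply, dv_apply] at x
    push_cast at x
    linarith
  have dβ : Dsc (-G) (a • (β + dv f₀)) := ((((Dsc.refl sG).smul _).add (.dv sG f₀))).smul a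
  have hart : ∀ (x : K) (k : ℕ), x ≠ 0 → (k : ℝ) ≤ N + m + 1 →
      (∀ P : Pl K, k * G P ≤ P.ord x) → Sec (a • (β + dv f₀)) (x * j ^ k) := fun x k x0 hk hx =>
    Or.inr (Gs.det hN hK sG l.pr.big ((Dsc.dv sG _).add dβ) fun P o => by
      have u := hx P
      have w := mul_nonneg (k.cast_nonneg (α := ℝ)) (kp P)
      have z := mul_nonneg (mul_nonneg (sub_nonneg.2 hk) (by positivity : (0 : ℝ) ≤ n + 2)) (β0 P)
      rw [(on P o).2] at u
      simp only [Pi.add_apply, Pi.smul_apply, smul_eq_mul, dv_apply, ha,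
        Pl.ord_mul _ x0 (pow_ne_zero k j0), Pl.ord_pow] at z ⊢
      push_cast
      linarith)
  have up : ∀ x, Sec β x → Sec (a • (β + dv f₀)) (x / f₀) := fun x hx =>
    ((sec_add_dv f0).2 (by rwa [div_mul_cancel₀ _ f0])).mono (le_smul_of_one_le_left β0 a1)
  have := hM.fin n K hK _ ((hM.isb n K hK).1 _ dβ.car)
  obtain ⟨S, hS⟩ := Module.Finite.iff_fg.1 this
  have sp : ∀ x, Sec (a • (β + dv f₀)) x → x ∈ Submodule.span ℂ ((insert 1 S : Finset K) : Set K) :=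
    fun x hx => Submodule.span_mono (by simp) (hS.ge (mem_H0.2 hx))
  have f₁ := hM.exc n K hK A (-G) (smp_mx _) bA sG l.pr.big
  have f₂ := Gs.isb_fin hK hN sG l.pr.big ((hM.isb n K hK).1 _
    (sub_mem r.pr.des.car l.pr.des.car))
  have oj : ∀ (P : Pl K) (x : K) (k : ℕ), x ≠ 0 → (P.ord (x * j ^ k) : ℝ) = P.ord x + k * P.ord j :=
    fun P x k x0 => by
    rw [Pl.ord_mul _ x0 (pow_ne_zero k j0), Pl.ord_pow]
    push_cast
    rfl
  have sf : ∀ P : Pl K, m * G P ≤ P.ord f₀ := fun P => (sc_iff.2 ⟨f0, s₀⟩).2 P trivial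
  have pv : ∀ {x : ℝ}, 0 ≤ x → 0 ≤ x * (m ^ (n + 1) * v) := fun h => mul_nonneg h (v0.trans v1)
  refine ⟨insert 1 S, y, g * j ^ N, f₀ * j ^ m, f₁.toFinset ∪ f₂.toFinset,
    Finset.mem_insert_self _ _, ?_, ?_, fun k => sp _ (up _ (s k)),
    sp _ (hart g N g0 (by linarith) fun P => g1 P trivial), sp _ (hart f₀ m f0 (by linarith) sf), hi,
    fun P => ?_, fun P o => ?_, fun P o => ?_, fun Q o => ?_, ?_⟩
  · refine top_le_iff.1 (B.ge.trans (IntermediateField.adjoin_le_iff.2 ?_))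
    have k : ∀ x, Sec β x → x / f₀ ∈
        IntermediateField.adjoin ℂ ((insert 1 S : Finset K) : Set K) := fun x hx =>
      (Submodule.span_le (p := (IntermediateField.adjoin ℂ _).toSubalgebra.toSubmodule)).2
        (IntermediateField.subset_adjoin _ _) (sp _ (up x hx))
    rintro _ ⟨x, z, u, w, rfl⟩
    rw [← div_div_div_cancel_right₀ f0]
    exact div_mem (k x u) (k z w)
  · have x := hV.mono _ K hK _ (a • β) (nef_mx (insert 1 S)) (sβ.nef.smul (by linarith))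
      (((Eff.of_nonneg (sub_nonneg.2 (mx_le ⟨1, Finset.mem_insert_self 1 S, one_ne_zero⟩
        fun x hx => (Finset.mem_insert.1 hx).elim (fun e => e ▸ sec_one.2
          (smul_nonneg (by linarith) β0)) fun e =>
          mem_H0.1 (hS.le (Submodule.subset_span e))))).psef).congr (by
        simpa [smul_add] using (Prn K).smul_mem a (dv_mem_Prn f₀)))
    rw [rw'.vol_smul _ sβ.car] at x
    have := mul_le_mul_of_nonneg_left v1 (by positivity : 0 ≤ a ^ (n + 1))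
    linarith [pv (abs_nonneg c), pv q0.le]
  · rw [oj P g N g0, kj]
    linarith [g2 P trivial]
  · have x := mul_le_mul_of_nonneg_left (sub_nonpos.1 (bd P o)) N1.le
    rw [oj P g N g0, kj]
    linarith [g1 P trivial]
  · have x := mul_le_mul_of_nonneg_left (sub_nonpos.1 (bd P o)) (by positivity : (0 : ℝ) ≤ m)
    have := Aβ P
    rw [oj P f₀ m f0, kj, eY, Pi.add_apply, dv_apply]
    rw [βa] at this
    linarith
  · simp only [Finset.mem_union, Finite.mem_toFinset, mem_ofPred_eq]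
    by_cases z : On n (-G) Q
    · by_cases w : (Γ - G) Q = 0
      · exact Or.inl ⟨(on Q z).1, by
          rw [dsc, Pi.sub_apply, ← (on Q z).2, ← neg_eq_zero, neg_sub]; exact w⟩
      · exact Or.inr (Or.inr ⟨z, w⟩)
    · exact Or.inr (Or.inl ⟨by rwa [On, ← vr], z⟩)
  · have x₁ := hc K ε 0 (-G) G (-G) 0 m _ f₀ f₁.toFinset (Eb.wk_of hK (hM.isb n K hK).2.2 l.pr l.elc
      l.cf one_pos (.refl sG) sG l.pr.big l.pr.rat.neg (by simpa using zon one_pos l.cf)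
      (sG.add sG).psef (by simpa using Psef.zero)) le_rfl (by positivity) m0 bA Aβ f0
      (s₀.resolve_left f0) fun P hP => ⟨(f₁.mem_toFinset.1 hP).1, Or.inl (f₁.mem_toFinset.1 hP).2⟩
    have x₂ := sum_le hH hK f₂.toFinset (nef_mx (insert f₀ (Finset.univ.image f))) sβ.nef
      (Eff.of_nonneg (sub_nonneg.2 Aβ)).psef (q := q) ((((sG.nef.smul (c := q * (m - 1))
        (mul_nonneg q0.le (by linarith))).add (nΓ.smul q0.le)).psef).mono fun P => by
        have u : ind f₂.toFinset P ≤ q * (Γ P - G P) := by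
          unfold ind
          split_ifs with z
          · obtain ⟨o, w⟩ := f₂.mem_toFinset.1 z
            obtain ⟨b, hb⟩ := cf P (on P o).1 trivial
            rw [ld_eq, ← (on P o).2, eq_div_iff q0.ne'] at hb
            have p : (0 : ℝ) < b := by
              have := mul_pos (lt_of_le_of_ne (sub_nonneg.2 (le P)) (Ne.symm w)) q0
              linarith
            have : (1 : ℝ) ≤ b := by exact_mod_cast p
            linarith
          · exact mul_nonneg q0.le (sub_nonneg.2 (le P))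
        simp only [Pi.add_apply, Pi.sub_apply, Pi.smul_apply, Pi.neg_apply, smul_eq_mul, βa]
        linarith) q0.le
    have x₃ := Finset.sum_union_inter (s₁ := f₁.toFinset) (s₂ := f₂.toFinset)
      (f := fun Q => vol n (res Q A))
    have x₄ : 0 ≤ ∑ Q ∈ f₁.toFinset ∩ f₂.toFinset, vol n (res Q A) := Finset.sum_nonneg fun Q _ =>
      (hH.rows hK Q).nef _ fun _ => hH.res_nef hK Q (nef_mx _)
    have x₅ := mul_le_mul_of_nonneg_right (le_abs_self c) v0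
    have x₆ := mul_le_mul_of_nonneg_left v1 (abs_nonneg c)
    have x₇ := mul_le_mul_of_nonneg_left v1 q0.le
    simp only [vr]
    linarith [pv (by positivity : 0 ≤ a ^ (n + 1))]

end one

/-- klt is an open condition -/
def KO : Prop := ForS fun n K _ _ => ∀ Γ ∈ Car K, ∀ F ∈ Car K, Klt (n + 1) Γ →
  ∃ ε : ℝ, 0 < ε ∧ ∀ t : ℝ, |t| ≤ ε → Klt (n + 1) (Γ + t • F)

/-- a rational semiample divisor has a free multiple -/
def SR : Prop := ForS fun _ K _ _ => ∀ β : BD K, Smp β → CarQ β →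
  ∃ (a : ℕ) (u : Finset K), 0 < a ∧ Nz u ∧ (a : ℝ) • β = mx u

/-- the program for a divisor `E` whose support is a given set of primes of a high model -/
def CT : Prop := ForS fun n K _ _ => ∀ (Y Γ : BD K) (T₀ : Set (Pl K)), Smp Y → Big Y →
  Klt (n + 1) Γ → Nef (-Γ) → Big (-Γ) → T₀.Finite → ∃ (W : BD K) (T : Finset (Pl K)), Smp W ∧
    Big W ∧ Dsc W Y ∧ (∀ P ∈ T₀, P ∈ T) ∧ (∀ P ∈ T, On n W P) ∧
    (∀ P, On n W P → On n Y P ∨ P ∈ T) ∧ ∀ T' ⊆ T,
      (∀ P, On n W P → P ∉ T' → dsc (n + 1) Γ P ≤ 0) → ∃ E N Λ : BD K, E ∈ Car K ∧ 0 ≤ N ∧ N ≤ E ∧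
        Smp (E - N) ∧ (∀ P, On n W P → (E P ≠ 0 ↔ P ∈ T')) ∧ Smp Λ ∧ Big Λ ∧ QF n Λ ∧
        ∀ P, On n Λ P ↔ On n W P ∧ N P = 0

section lim

variable {U : Ultrafilter ℕ} {c : Cq U} {n : ℕ} {K : ℕ → Type} [∀ i, Field (K i)]
  [∀ i, Algebra ℂ (K i)] {L : Type} [Field L] [Algebra ℂ L] {D : Lm c (n + 1) K L}
  {β γ W W' : BD L}

theorem jc_ne (i : ℕ) : D.jc i ≠ 0 := by
  unfold Lm.jc
  split_ifs with h
  exacts [h.choose_spec.1, one_ne_zero]

theorem tr_neg (h : D.RC) (a : β ∈ Car L) : ∀ᶠ i in U, D.tr i (-β) = -D.tr i β := by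
  simpa only [neg_smul, one_smul] using h.smul (-1) β a

theorem tr_sub (h : D.RC) (a : β ∈ Car L) (b : γ ∈ Car L) :
    ∀ᶠ i in U, D.tr i (β - γ) = D.tr i β - D.tr i γ := by
  filter_upwards [h.add β a _ (neg_mem b), tr_neg h b] with i x y
  rw [sub_eq_add_neg, x, y, sub_eq_add_neg]

theorem on_sub (h : D.RP) (a : Smp W) (b : Big W) (a' : Smp W') (b' : Big W')
    (e : ∀ P, On n W' P → On n W P) :
    ∀ᶠ i in U, ∀ Q, On n (D.tr i W') Q → On n (D.tr i W) Q :=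
  (h.exc W W' a b a' b').mono fun _ k Q o => by_contra fun z =>
    let ⟨P, x, y, _⟩ := k Q o z
    y (e P x)

theorem eq_on (hC : D.RC) (h : D.RP) (a : Smp W) (b : Big W) (x : β ∈ Car L) (y : γ ∈ Car L)
    (e : ∀ P, On n W P → β P = γ P) :
    ∀ᶠ i in U, ∀ Q, On n (D.tr i W) Q → D.tr i β Q = D.tr i γ Q := by
  filter_upwards [h.supp W a b _ (sub_mem x y), tr_sub hC x y] with i k t Q o
  by_contra z
  obtain ⟨P, u, v, -⟩ := k Q o (by rw [t]; exact sub_ne_zero.2 z)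
  exact v (sub_eq_zero.2 (e P u))

theorem ev_le {a b : ℝ} (h : ∀ᶠ _ : ℕ in U, a ≤ b) : a ≤ b := h.exists.choose_spec

variable {Λ Γ : ∀ i, BD (K i)}

/-- the data on the members of the sequence -/
structure Sq (n q : ℕ) (Λ Γ : ∀ i, BD (K i)) : Prop where
  pr : ∀ i, Pr n (Λ i) (Γ i)
  nef : ∀ i, Nef (-Γ i)
  lc : ∀ i, ELc n 0 (Γ i) All
  cf : ∀ i, Cf n (Λ i) (Γ i) (Frq q) All

/-- a `ℚ`-factorial model of Fano type of the limit, with the same primes -/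
theorem model (hR : RES) (hN : NEG) (hO : KO) (hT : CT) (rc : D.RC) (rp : D.RP) (rk : D.RK)
    (rl : D.RL) (s : ∀ i, Smp (Λ i) ∧ Big (Λ i)) {p : ∀ i, Pl (K i) → Prop} {Y Θ G : BD L}
    (sY : Smp Y) (bY : Big Y) (pΘ : Θ ∈ Prn L) (nG : Nef (-G)) (bG : Big (-G))
    (h : ∀ᶠ i in U, Klt (n + 1) (D.tp i Θ) ∧ ∀ Q, On n (Λ i) Q →
      dsc (n + 1) (D.tp i Θ) Q ≤ 0 ∧ dsc (n + 1) (D.tp i G) Q ≤ 0) {T₁ : Finset (Pl L)}
    (h₁ : ∀ᶠ i in U, ∀ Q, On n (D.tr i Y) Q → (On n (Λ i) Q ∧ p i Q) ∨ ∃ P ∈ T₁, Q = D.sp P i) :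
    ∃ (V : BD L) (T : Finset (Pl L)), FTo n V ∅ ∧ QF n V ∧ ∀ᶠ i in U, ∀ Q,
      (On n (D.tr i V) Q ↔ On n (Λ i) Q) ∧ (On n (Λ i) Q → p i Q ∨ ∃ P ∈ T, Q = D.sp P i) := by
  classical
  have cΘ := Prn_le_Car pΘ
  have cG : G ∈ Car L := by simpa using neg_mem nG.car
  have kΘ : Klt (n + 1) Θ := fun P => by
    obtain ⟨i, a, b⟩ := (h.and (rk.val Θ cΘ P)).exists
    exact b ▸ a.1 _
  obtain ⟨η₀, e₀, kη⟩ := hO n L D.ff Θ cΘ (G - Θ) (sub_mem cG cΘ) kΘ
  obtain ⟨η, e0, e1, e2⟩ : ∃ η : ℝ, 0 < η ∧ η ≤ 1 ∧ η ≤ η₀ :=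
    ⟨min 1 η₀, lt_min one_pos e₀, min_le_left _ _, min_le_right _ _⟩
  have k₁ := kη η ((abs_of_pos e0).trans_le e2)
  have q₁ : -(Θ + η • (G - Θ)) = η • -G + (η - 1) • Θ := by module
  have n₁ : Nef (-(Θ + η • (G - Θ))) := q₁ ▸ (nG.smul e0.le).add_prn ((Prn L).smul_mem _ pΘ)
  have b₁ : Big (-(Θ + η • (G - Θ))) := q₁ ▸ (bG.smul e0).add_prn ((Prn L).smul_mem _ pΘ)
  obtain ⟨fF, hF⟩ := rl.fin Y sY bY Θ cΘ kΘ
  obtain ⟨W, T, sW, bW, dW, t₀, t₁, t₂, ct⟩ :=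
    hT n L D.ff Y _ _ sY bY k₁ n₁ b₁ (fF.union T₁.finite_toSet)
  have oT : ∀ᶠ i in U, ∀ P ∈ T, On n (D.tr i W) (D.sp P i) := (eventually_all_finset T).2
    fun P a => (rp.on W sW.car P).mono fun _ e => e.2 (t₁ P a)
  have ha : ∀ᶠ i in U, ∀ Q, On n (Λ i) Q → On n (D.tr i W) Q := by
    filter_upwards [h, hF, oT, rc.des W Y dW, rc.smp Y sY] with i a b d e f Q o
    by_cases z : On n (D.tr i Y) Q
    · exact (hR.on n _ (D.ffi i) _ Q e.smp).2 ((hR.des n _ (D.ffi i) _ _ Q e).big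
        ((hR.on n _ (D.ffi i) _ Q f).1 z))
    · obtain ⟨P, x, y, rfl⟩ := b Q z (by unfold ld; linarith [(a.2 Q o).1])
      exact d P (t₀ P (Or.inl ⟨x, y⟩))
  have hb : ∀ᶠ i in U, ∀ Q, On n (D.tr i W) Q →
      (On n (Λ i) Q ∧ p i Q) ∨ ∃ P ∈ T, Q = D.sp P i := by
    filter_upwards [h₁, rp.exc Y W sY bY sW bW] with i a b Q o
    by_cases z : On n (D.tr i Y) Q
    · exact (a Q z).imp_right fun ⟨P, x, y⟩ => ⟨P, t₀ P (Or.inr x), y⟩
    · obtain ⟨P, x, y, e⟩ := b Q o z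
      exact Or.inr ⟨P, (t₂ P x).resolve_left y, e⟩
  set T' := T.filter fun P => ¬ ∀ᶠ i in U, On n (Λ i) (D.sp P i) with hT'
  have hX : ∀ P, On n W P → P ∉ T' → ∀ᶠ i in U, On n (Λ i) (D.sp P i) := fun P o z => by
    by_cases x : P ∈ T
    · exact not_not.1 fun y => z (Finset.mem_filter.2 ⟨x, y⟩)
    · filter_upwards [hb, rp.on W sW.car P, (eventually_all_finset T).2 fun R (y : R ∈ T) =>
        D.sp_ne (P := P) (Q := R) fun e => x (e ▸ y)] with i a b d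
      exact ((a _ (b.2 o)).resolve_right fun ⟨R, u, v⟩ => d R u v).1
  have hn : ∀ᶠ i in U, ∀ P ∈ T', ¬ On n (Λ i) (D.sp P i) := (eventually_all_finset T').2
    fun P a => Ultrafilter.eventually_not.2 (Finset.mem_filter.1 a).2
  have bd : ∀ P, On n W P → P ∉ T' → dsc (n + 1) (Θ + η • (G - Θ)) P ≤ 0 := fun P o z => by
    obtain ⟨i, ⟨a, b⟩, d, e⟩ := ((h.and (hX P o z)).and
      ((rk.val Θ cΘ P).and (rk.val G cG P))).exists
    obtain ⟨u, v⟩ := a.2 _ b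
    rw [d] at u
    rw [e] at v
    simp only [dsc, Pi.sub_apply, Pi.add_apply, Pi.smul_apply, smul_eq_mul] at u v ⊢
    nlinarith
  obtain ⟨E, N, V, cE, N0, NE, sE, sp, sV, bV, qV, oV⟩ := ct T' (Finset.filter_subset _ _) bd
  have cN : N ∈ Car L := by simpa using sub_mem cE sE.car
  have EN : E ≤ N := fun P => sub_nonpos.1 <| ev_le (U := U) (a := (E - N) P) <| by
    filter_upwards [rp.val _ sE.car P, rc.smp _ sE, tr_sub rc cE cN, rc.nn N cN N0,
      rp.supp W sW bW E cE, ha, hn] with i a b d e f g k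
    rw [← a]
    refine hN.neg n _ (D.ffi i) (Λ i) _ 0 (s i).1 (s i).2 b.car (by simpa using b.nef)
      (fun Q o => ?_) _
    have z : D.tr i E Q = 0 := by_contra fun z =>
      let ⟨R, u, v, w⟩ := f Q (g Q o) z
      k R ((sp R u).1 v) (w ▸ o)
    rw [d, Pi.sub_apply, z, zero_sub, neg_nonpos]
    exact e Q
  obtain rfl : N = E := le_antisymm NE EN
  have oV' : ∀ P, On n V P ↔ On n W P ∧ P ∉ T' := fun P =>
    (oV P).trans (and_congr_right fun o => by rw [← sp P o, not_not])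
  refine ⟨V, T, ⟨sV, bV, by simpa using Dsc.zero sV, _, 0, k₁,
    fun P o => bd P ((oV' P).1 o).1 ((oV' P).1 o).2, by simpa using n₁, by simpa using b₁⟩, qV, ?_⟩
  have hV : ∀ P ∈ T, ∀ᶠ i in U, On n (D.tr i V) (D.sp P i) → On n (Λ i) (D.sp P i) := fun P _ => by
    by_cases o : On n V P
    · exact (hX P ((oV' P).1 o).1 ((oV' P).1 o).2).mono fun _ a _ => a
    · exact (rp.on V sV.car P).mono fun _ a b => (o (a.1 b)).elim
  filter_upwards [ha, hb, hn, on_sub rp sW bW sV bV fun P o => ((oV' P).1 o).1,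
    rp.exc V W sV bV sW bW, (eventually_all_finset T).2 hV] with i a b d e f g Q
  refine ⟨⟨fun o => (b Q (e Q o)).elim (·.1) ?_, fun o => by_contra fun z => ?_⟩,
    fun o => (b Q (a Q o)).imp_left (·.2)⟩
  · rintro ⟨P, u, rfl⟩
    exact g P u o
  · obtain ⟨P, u, v, rfl⟩ := f Q (a Q o) z
    exact d P (by_contra fun w => v ((oV' P).2 ⟨u, w⟩)) o

/-- the pair on the limit model -/
theorem pair (hM : MOD) (hN : NEG) (rp : D.RP) (rk : D.RK) {q : ℕ} (hq : 0 < q)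
    (s : Sq n q Λ Γ) {V : BD L} {T : Finset (Pl L)} (sV : Smp V) (bV : Big V) (qV : QF n V)
    (h : ∀ᶠ i in U, ∀ Q, (On n (D.tr i V) Q ↔ On n (Λ i) Q) ∧
      (On n (Λ i) Q → dsc (n + 1) (Γ i) Q = 0 ∨ ∃ P ∈ T, Q = D.sp P i)) :
    ∃ G : BD L, Dsc V G ∧ CarQ G ∧ ∀ᶠ i in U, ∀ Q, On n (Λ i) Q → D.tp i G Q = Γ i Q := by
  classical
  have q0 : (0 : ℝ) < q := by positivity
  have ex : ∀ P, ∃ j : ℤ, On n V P →
      ∀ᶠ i in U, dsc (n + 1) (Γ i) (D.sp P i) = -(j / q) := fun P => by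
    by_cases o : On n V P
    swap
    · exact ⟨0, fun a => (o a).elim⟩
    have : ∀ᶠ i in U, ∃ j ∈ Icc (0 : ℤ) q, dsc (n + 1) (Γ i) (D.sp P i) = -(j / q) := by
      filter_upwards [h, rp.on V sV.car P] with i a b
      have o' := (a _).1.1 (b.2 o)
      obtain ⟨j, hj⟩ := s.cf i _ o' trivial
      have u := (s.pr i).bdy _ o'
      have v := s.lc i (D.sp P i) trivial
      unfold ld at hj v
      refine ⟨j, ⟨?_, ?_⟩, by linarith⟩
      · have : (0 : ℝ) ≤ j / q := by linarith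
        exact_mod_cast (le_div_iff₀ q0).1 this |>.trans' (zero_mul _).ge
      · exact_mod_cast (div_le_one q0).1 (by linarith : (j : ℝ) / q ≤ 1)
    obtain ⟨j, -, hj⟩ := (Ultrafilter.eventually_exists_mem_iff (finite_Icc _ _)).1 this
    exact ⟨j, fun _ => hj⟩
  choose j hj using ex
  obtain ⟨G, dG, hG⟩ := Gs.exists_hull hN D.ff sV qV
    (Z := fun P => cn L (n + 1) P + if P ∈ T then (j P : ℝ) / q else 0)
    (((Gs.isb_fin D.ff hN sV bV (hM.isb n L D.ff).2.1).union T.finite_toSet).subset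
      fun P ⟨a, b⟩ => by_contra fun z => by
        simp only [mem_union, mem_ofPred_eq, a, true_and, not_or, not_not, Finset.mem_coe] at z
        exact b (by simp [z.1, z.2]))
  have dd : ∀ P, On n V P → dsc (n + 1) G P = -if P ∈ T then (j P : ℝ) / q else 0 := fun P o => by
    simp [dsc, hG P o]
  refine ⟨G, dG, Gs.carQ_of hN D.ff sV bV dG fun P o => ?_, ?_⟩
  · obtain ⟨z, hz⟩ := Cb.cn_int (n := n + 1) P
    refine ⟨z + if P ∈ T then (j P : ℚ) / q else 0, ?_⟩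
    simp only [hG P o, hz]
    split_ifs <;> simp
  have hv : ∀ P ∈ T, ∀ᶠ i in U, On n (D.tr i V) (D.sp P i) → dsc (n + 1) (D.tp i G) (D.sp P i) =
      dsc (n + 1) (Γ i) (D.sp P i) := fun P a => by
    by_cases o : On n V P
    · filter_upwards [hj P o, rk.val G dG.car P] with i x y _
      rw [x, y, dd P o, if_pos a]
    · exact (rp.on V sV.car P).mono fun _ a b => (o (a.1 b)).elim
  filter_upwards [h, rk.supp V sV bV G dG.car, (eventually_all_finset T).2 hv] with i a b d Q o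
  have o' := (a Q).1.2 o
  refine sub_right_injective (b := cn (K i) (n + 1) Q)
    (show dsc (n + 1) (D.tp i G) Q = dsc (n + 1) (Γ i) Q from ?_)
  by_cases x : ∃ P ∈ T, Q = D.sp P i
  · obtain ⟨P, u, rfl⟩ := x
    exact d P u o'
  · rw [((a Q).2 o).resolve_right x]
    by_contra z
    obtain ⟨P, u, v, w⟩ := b Q o' z
    exact x ⟨P, by_contra fun y => v (by rw [dd P u, if_neg y, neg_zero]), w⟩

/-- the positive part of the limit is the limit of the anti-log-canonical divisors -/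
theorem free (hV : VOL) (hN : NEG) (hS : SR) (h0 : FTM0) (h1 : FTM1) (rc : D.RC) (rp : D.RP)
    {q : ℕ} (s : Sq n q Λ Γ) {V G : BD L} (f : FTo n V ∅) (qV : QF n V) (dG : Dsc V G)
    (qG : CarQ G) (h : ∀ᶠ i in U, ∀ Q, On n (D.tr i V) Q ↔ On n (Λ i) Q)
    (e : ∀ᶠ i in U, ∀ Q, On n (Λ i) Q → D.tp i G Q = Γ i Q) : ∃ m : ℕ, 0 < m ∧
    ∀ᶠ i in U, ∃ u : Finset (K i), Nz u ∧ mx u = (m : ℝ) • -Γ i := by
  classical
  have pj : ∀ i, -dv (D.jc i) ∈ Prn (K i) := fun i => neg_mem (dv_mem_Prn _)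
  have e' : ∀ᶠ i in U, ∀ Q, On n (Λ i) Q → D.tr i (-G) Q = (-Γ i + -dv (D.jc i)) Q := by
    filter_upwards [e, tr_neg rc dG.car] with i a b Q o
    have := a Q o
    simp only [Lm.tp, Pi.sub_apply] at this
    simp only [b, Pi.neg_apply, Pi.add_apply]
    linarith
  have le : ∀ V' G' : BD L, Smp V' → Big V' → Hull n V' (-G) G' → (∀ P, On n V' P → On n V P) →
      ∀ᶠ i in U, -Γ i + -dv (D.jc i) ≤ D.tr i G' := fun V' G' a b d o => by
    filter_upwards [h, e', on_sub rp f.smp f.big a b o, eq_on rc rp a b d.1.car dG.neg.car d.2,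
      rc.des _ _ d.1, rc.big _ a.car b] with i x y z w u v
    obtain ⟨t, -, ht⟩ := u.neg.exists_add
    have k := (s.nef i).add_prn (pj i)
    refine sub_nonpos.1 (hN.neg n _ (D.ffi i) _ _ t u.smp v (sub_mem k.car u.car) ?_ fun Q o => ?_)
    · simpa only [sub_eq_add_neg, add_assoc] using k.add (ht t le_rfl).nef
    · rw [Pi.sub_apply, w Q o, y Q ((x Q).1 (z Q o)), sub_self]
  have ps : Psef (-G + (0 : ℝ) • mx ∅) := by
    by_contra z
    obtain ⟨V', G', s₁, m, a, -, -, b, -, -, o, -, nb, am, -⟩ :=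
      h1 n L D.ff V (-G) ∅ f qV dG.neg qG.neg (by simpa using z)
    have cs := mx_mem_Car s₁
    refine nb ((hV.big _ L D.ff _ (nef_mx s₁)).2 ?_)
    obtain ⟨i, ⟨x, y⟩, ⟨u, v⟩, w, r⟩ := (((le V' G' a.smp a.big b o).and
      (rc.big _ am.car (am.big_iff.1 a.big))).and (((tr_sub rc ((Car L).smul_mem m cs)
        b.1.car).and (rc.smul m _ cs)).and ((rc.num (fun _ => mx s₁) fun _ => cs).and
          (rc.smp _ (smp_mx s₁))))).exists
    rw [u, v] at y
    have k := (y.add_psef (((s.nef i).add_prn (pj i)).psef.mono x)).add_smp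
      (r.smul (c := |m| + 1 - m) (by linarith [le_abs_self m]))
    rw [sub_add_cancel, ← add_smul, add_sub_cancel] at k
    exact (show vol _ _ = vol _ _ from w) ▸
      (hV.big _ _ (D.ffi i) _ r.nef).1 (k.of_smul (by positivity))
  obtain ⟨V', G', c', a, -, b, qG', o, z⟩ := h0 n L D.ff V (-G) ∅ 0 f qV dG.neg qG.neg ps
  have z' := (z c' le_rfl).1
  have sG : Smp G' := by simpa using z'.smp
  obtain ⟨m, u, m0, nu, eu⟩ := hS n L D.ff G' sG qG'
  obtain ⟨g, hg, g0⟩ := nu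
  refine ⟨m, m0, ?_⟩
  filter_upwards [le V' G' a.smp a.big b fun P x => ((o P).1 x).1, e', rc.smp _ sG,
    rc.nn _ (sub_mem dG.neg.car sG.car) z'.nn, tr_sub rc dG.neg.car sG.car, rc.smul m _ sG.car,
    rc.sys u, D.ne g0] with i x y w r t v k l
  have d := (s.pr i).des.add (Dsc.dv (s.pr i).smp (D.jc i))
  obtain ⟨t', -, ht⟩ := d.exists_add
  have ge := hN.neg n _ (D.ffi i) _ (D.tr i G' + (Γ i + dv (D.jc i))) t' (s.pr i).smp (s.pr i).big
    (add_mem w.car d.car) (by simpa only [add_assoc] using w.nef.add (ht t' le_rfl).nef)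
    fun Q o => by
      have a := r Q
      have b := y Q o
      rw [t] at a
      simp only [Pi.add_apply, Pi.sub_apply, Pi.neg_apply, Pi.zero_apply] at a b ⊢
      linarith
  have eq : D.tr i G' = -Γ i + -dv (D.jc i) :=
    le_antisymm (by rw [← neg_add]; exact le_neg_iff_add_nonpos_right.2 ge) x
  have nz : Nz (D.im i u) := ⟨_, Finset.mem_image_of_mem _ hg, l⟩
  have j0 : (D.jc i ^ m)⁻¹ ≠ 0 := inv_ne_zero (pow_ne_zero m (jc_ne i))
  refine ⟨(D.im i u).image (· * (D.jc i ^ m)⁻¹),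
    ⟨_, Finset.mem_image_of_mem _ (Finset.mem_image_of_mem _ hg), mul_ne_zero l j0⟩, ?_⟩
  rw [mx_image_mul nz j0, ← k, ← eu, v, eq, dv_inv, dv_pow]
  module

/-- the limit of the bounded data -/
theorem lim (hR : RES) (hN : NEG) (hO : KO) (hT : CT) (rc : D.RC) (rp : D.RP) (rk : D.RK)
    (rl : D.RL) (s : ∀ i, Smp (Λ i) ∧ Big (Λ i)) {N m : ℕ} {v : ℝ} (N0 : 0 < N) (m0 : 0 < m)
    {S : ∀ i, Finset (K i)} {y : ∀ i, Fin (n + 1) → K i} {φ ψ : ∀ i, K i}
    {T : ∀ i, Finset (Pl (K i))}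
    (p : ∀ i, Pp n N m v (Λ i) (Γ i) (S i) (y i) (φ i) (ψ i) (T i)) {u : Finset L}
    (hu : ∀ᶠ i in U, Submodule.span ℂ (D.im i u : Set (K i)) = Submodule.span ℂ (S i : Set (K i))) :
    ∃ (V : BD L) (T : Finset (Pl L)), FTo n V ∅ ∧ QF n V ∧ ∀ᶠ i in U, ∀ Q,
      (On n (D.tr i V) Q ↔ On n (Λ i) Q) ∧
        (On n (Λ i) Q → dsc (n + 1) (Γ i) Q = 0 ∨ ∃ P ∈ T, Q = D.sp P i) := by
  classical
  have ex : ∀ g : ∀ i, K i, (∀ i, g i ∈ Submodule.span ℂ (S i : Set (K i))) →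
      ∃ f, ∀ᶠ i in U, D.r i f = g i := fun g hg =>
    let ⟨f, _, h⟩ := D.lim_span u (g := g) (hu.mono fun i e => by
      rw [← Finset.coe_image]
      convert e.ge (hg i)
      rfl)
    ⟨f, h⟩
  choose x hx using fun k => ex (fun i => y i k) fun i => (p i).my k
  obtain ⟨a, ha⟩ := ex φ fun i => (p i).mφ
  obtain ⟨b, hb⟩ := ex ψ fun i => (p i).mψ
  have hx' : ∀ᶠ i in U, (fun k => D.r i (x k)) = y i :=
    (eventually_all.2 hx).mono fun _ h => funext h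
  have ix : AlgebraicIndependent ℂ x := D.ind_of (hx'.mono fun i h => h ▸ (p i).ind)
  obtain ⟨j, j0, ej⟩ := Cb.kap_cn D.ff ix
  have cj := dv_mem_Car j
  have cY := mx_mem_Car (hy x)
  have bY := big_hy D.ff ix
  have tY : ∀ᶠ i in U, D.tr i (mx (hy x)) = mx (hy (y i)) := by
    filter_upwards [rc.sys (hy x), hx', D.one] with i h e o
    rw [h, ← e]
    congr 1
    ext z
    simp [Lm.im, hy, o, eq_comm]
  have key : ∀ β ∈ Car L, ∀ᶠ i in U,
      dsc (n + 1) (D.tp i (β - dv j)) = kap (y i) - D.tr i β := fun β hβ => by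
    filter_upwards [rk.frm x j ix j0 ej, hx', tr_sub rc hβ cj, rc.pri j, D.ne j0] with i h e t r z
    rw [e, dv_mul (jc_ne i) z] at h
    rw [dsc, Lm.tp, t, r, h]
    abel
  have N1 : (0 : ℝ) < N := by positivity
  have m1 : (0 : ℝ) < m := by positivity
  have q₁ : -((m : ℝ)⁻¹ • (dv b - mx (hy x)) - dv j) =
      (m : ℝ)⁻¹ • mx (hy x) + (dv j - (m : ℝ)⁻¹ • dv b) := by module
  have p₁ := sub_mem (dv_mem_Prn j) ((Prn L).smul_mem (m : ℝ)⁻¹ (dv_mem_Prn b))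
  have cb := sub_mem (dv_mem_Car b) cY
  obtain ⟨T₁, z, -, hz⟩ := rp.lz _ (smp_mx (hy x)) bY (fun i => ind (T i)) v (tY.mono fun i e =>
    ⟨isB_ind _, fun Q _ => by
      unfold ind
      split_ifs
      exacts [⟨1, Nat.cast_one.symm⟩, ⟨0, Nat.cast_zero.symm⟩], by
      rw [I_ind, e]
      exact (p i).deg⟩)
  refine model hR hN hO hT rc rp rk rl s (Θ := (N : ℝ)⁻¹ • dv a - dv j)
    (G := (m : ℝ)⁻¹ • (dv b - mx (hy x)) - dv j) (T₁ := T₁) (smp_mx (hy x)) bY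
    (sub_mem ((Prn L).smul_mem _ (dv_mem_Prn a)) (dv_mem_Prn j))
    (q₁ ▸ ((nef_mx _).smul (inv_pos.2 m1).le).add_prn p₁)
    (q₁ ▸ (bY.smul (inv_pos.2 m1)).add_prn p₁) ?_ ?_
  · filter_upwards [key _ ((Car L).smul_mem (N : ℝ)⁻¹ (dv_mem_Car a)),
      key _ ((Car L).smul_mem (m : ℝ)⁻¹ cb), rc.smul (N : ℝ)⁻¹ _ (dv_mem_Car a),
      rc.smul (m : ℝ)⁻¹ _ cb, tr_sub rc (dv_mem_Car b) cY, rc.pri a, rc.pri b, ha, hb, tY]
      with i k₁ k₂ e₁ e₂ e₃ e₄ e₅ e₆ e₇ e₈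
    rw [e₁, e₄, e₆] at k₁
    rw [e₂, e₃, e₅, e₇, e₈] at k₂
    simp only [Klt, k₁, k₂, Pi.sub_apply, Pi.smul_apply, smul_eq_mul, dv_apply]
    refine ⟨fun P => ?_, fun Q o => ⟨?_, ?_⟩⟩
    · linarith [(inv_mul_lt_iff₀ N1).2 ((p i).klt P)]
    · linarith [(le_inv_mul_iff₀ N1).2 ((p i).bφ Q o)]
    · rw [sub_nonpos, le_inv_mul_iff₀ m1]
      linarith [(p i).bψ Q o]
  · filter_upwards [hz, tY] with i h e Q o
    refine ((p i).cov Q (e ▸ o)).imp_right fun w => by_contra fun k => ?_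
    have := h Q o
    rw [ind, if_pos w, Finset.sum_eq_zero fun P hP => by
      rw [Pl.δ_ne fun r => k ⟨P, hP, r⟩, mul_zero]] at this
    exact one_ne_zero this

end lim

/-- **SSA** -/
theorem ssa_of (hH : In.Hy) (hF : FFS) (hM : MOD) (hR : RES) (hV : VOL) (hN : NEG) (hO : KO)
    (hS : SR) (hT : CT) (hE : EXTR) (h0 : FTM0) (h1 : FTM1) (hD : ∀ k, Eb.DEG k) (hU : UA) :
    SSA := fun n eb vb kl ε q hε hq => by
  classical
  obtain ⟨N, m, v, N0, m0, H⟩ := prep hH hF hM hR hV hN hE h0 (hD n) eb vb kl hε hq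
  by_contra hc
  have : ∀ i : ℕ, ∃ (K : Type) (_ : Field K) (_ : Algebra ℂ K) (Λ Γ : BD K), FF K (n + 1) ∧
      Rel n Λ ∅ Γ ∧ ELc n ε Γ All ∧ Cf n Λ Γ (Frq q) All ∧
      ¬ ∃ s : Finset K, Nz s ∧ mx s = (i.factorial : ℝ) • -Γ := fun i => by
    by_contra z
    exact hc ⟨i.factorial, i.factorial_pos, fun K _ _ hK Λ Γ a b d => by_contra fun w =>
      z ⟨K, _, _, Λ, Γ, hK, a, b, d, w⟩⟩
  choose K _ _ Λ Γ hK r e cf no using this
  choose S y φ ψ T p using fun i => H (K i) (hK i) (Λ i) (Γ i) (r i) (e i) (cf i)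
  obtain ⟨c⟩ := nonempty_cq (hyperfilter ℕ)
  obtain ⟨L, _, _, D, u, -, -, hu⟩ := hU.ex _ c (n + 1) K S v hK
    (.of_forall fun i => ⟨(p i).one, (p i).gen, (p i).vl⟩)
  have rc := hU.rc _ c (n + 1) K L D
  have rp := hU.rp _ c n K L D
  have rk := hU.rk _ c n K L D
  have s : Sq n q Λ Γ := ⟨fun i => (r i).pr, fun i => let ⟨_, h⟩ := (r i).nef; by simpa using h,
    fun i P _ => hε.le.trans (e i P trivial), cf⟩
  obtain ⟨V, T', f, qV, h⟩ := lim hR hN hO hT rc rp rk (hU.rl _ c n K L D)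
    (fun i => ⟨(r i).pr.smp, (r i).pr.big⟩) N0 m0 p hu
  obtain ⟨G, dG, qG, eG⟩ := pair hM hN rp rk hq s f.smp f.big qV h
  obtain ⟨a, a0, ha⟩ := free hV hN hS h0 h1 rc rp s f qV dG qG (h.mono fun i x Q => (x Q).1) eG
  obtain ⟨i, ⟨w, -, ew⟩, hi⟩ := (ha.and (Nat.hyperfilter_le_atTop (eventually_ge_atTop a))).exists
  obtain ⟨b, hb⟩ := Nat.dvd_factorial a0 hi
  obtain ⟨w', nz, ew'⟩ := exists_mx_nsmul w b
  exact no i ⟨w', nz, by rw [ew', ew, hb, smul_smul, Nat.cast_mul, mul_comm]⟩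

end Vale.Agent.P283B.Vs
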