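import Vale.Agent.P283B.VOL.St

/-!
# P283B, block VOL: the leaves of CORE (statements)
-/

set_option linter.unusedVariables false

open Set MvPolynomial

noncomputable section

namespace Vale.Agent.P283B.Vo

open P287D

section defs

variable {K : Type} [Field K] [Algebra ℂ K] {k : ℕ}

/-- the field of the coordinates -/
abbrev fy (y : Fin k → K) : IntermediateField ℂ K := IntermediateField.adjoin ℂ (range y)

/-- the degree of `F` over the field of the coordinates -/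
def dg (y : Fin k → K) (F : K) : ℕ := (minpoly (fy y) F).natDegree

/-- the coefficients of the minimal polynomial of `F` over `ℂ(y)` are the polynomials `b` -/
def Mp (y : Fin k → K) (F : K) (b : ℕ → MvPolynomial (Fin k) ℂ) : Prop :=
  ∀ i, ((minpoly (fy y) F).coeff i : K) = aeval y (b i)

end defs

/-- **RI**: the order of a polynomial is bounded by the weight of any of its monomials -/
def RI : Prop := ForS fun n K _ _ => ∀ (y : Fin (n + 1) → K) (E : Pl K)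
  (p : MvPolynomial (Fin (n + 1)) ℂ) (d : ℕ), AlgebraicIndependent ℂ y → p.totalDegree ≤ d →
  ∀ u ∈ p.support, (E.ord (aeval y p) : ℝ) ≤
    ∑ j, (E.ord (y j) : ℝ) * u j + (n + 1) * d * al y E

/-- **LOW**: the order of a polynomial is at least the least weight of its monomials -/
def LOW : Prop := ForS fun n K _ _ => ∀ (y : Fin (n + 1) → K) (E : Pl K)
  (p : MvPolynomial (Fin (n + 1)) ℂ), AlgebraicIndependent ℂ y → p ≠ 0 →
  ∃ u ∈ p.support, ∑ j, (E.ord (y j) : ℝ) * u j ≤ E.ord (aeval y p)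

/-- **NP3**: the minimal polynomial of a section of `δ` times the hyperplane -/
def NP3 : Prop := ForS fun n K _ _ => ∀ (y : Fin (n + 1) → K) (δ : ℕ) (h : K),
  AlgebraicIndependent ℂ y → Sec ((δ : ℝ) • mx (hy y)) h →
  ∃ b, Mp y h b ∧ ∀ i, (b i).totalDegree ≤ (dg y h - i) * δ

/-- **MW**: the places over a monomial valuation -/
def MW : Prop := ForS fun n K _ _ => ∀ (y : Fin (n + 1) → K) (w : Fin (n + 1) → ℕ),
  AlgebraicIndependent ℂ y → w ≠ 0 → ∃ (T : Set (Pl K)) (e : Pl K → ℝ), T.Finite ∧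
    (∀ P ∈ T, al y P = 0 ∧ 0 < e P ∧ e P ≤ Module.finrank (fy y) K ∧
      ∀ j, (P.ord (y j) : ℝ) = e P * w j) ∧
    ∀ (F : K) (b : ℕ → MvPolynomial (Fin (n + 1)) ℂ) (c : ℝ), Mp y F b →
      (∀ P ∈ T, c * e P ≤ P.ord F) → ∀ i, ∀ u ∈ (b i).support,
        (dg y F - i : ℕ) * (c - ∑ j, (w j : ℝ)) ≤ ∑ j, (w j : ℝ) * u j

/-- **SZ**: the data of CORE are of bounded size -/
def SZ : Prop := ∀ (n N : ℕ) (V : ℝ), 0 < N → ∃ (V₁ : ℝ) (c₁ : ℕ), ForN n fun K _ _ =>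
  ∀ (Λ β G₀ : BD K) (g : K), Smp Λ → Big Λ → Dsc Λ β → Dsc Λ G₀ → Nef β → Bir β → 0 ≤ G₀ →
    Nef G₀ → vol (n + 1) (β + G₀) ≤ V → g ≠ 0 →
    (∀ P, On n Λ P → N * (cn K (n + 1) P - G₀ P) ≤ P.ord g) →
    ∃ (S : Finset K) (x : Fin (n + 1) → K) (j : K), j ≠ 0 ∧ kap x = cn K (n + 1) + dv j ∧
      1 ∈ S ∧ IntermediateField.adjoin ℂ (S : Set K) = ⊤ ∧ vol (n + 1) (mx S) ≤ V₁ ∧
      AlgebraicIndependent ℂ x ∧ (∀ a, x a ∈ S) ∧ g * j ^ N ∈ S ∧ Big ((c₁ : ℝ) • mx S - β)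

end Vale.Agent.P283B.Vo
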