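import Vale.Agent.P283B.VOL.St
import Vale.Agent.P283B.EB.Cen

/-!
# P283B, block VOL: the two halves of `SVB` (statements)
-/

set_option linter.unusedVariables false

open Set

noncomputable section

namespace Vale.Agent.P283B.Vo

open P287D

/-- there is no generic tiger of small level with a second place which is not klt -/
def NT {K : Type} [Field K] [Algebra ℂ K] (n : ℕ) (η₀ : ℝ) (η : ℕ → ℝ → ℝ) (Λ N Γ : BD K) :
    Prop :=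
  ∀ (K' : Type) [Field K'] [Algebra ℂ K'] (φ : K →+* K') (Γ' Δ : BD K') (a : ℝ) (P R : Pl K')
    (h : Eb.Ce n φ Λ N Γ Γ' Δ a P), R ≠ P → ld (n + 1) (Γ' + Δ) R ≤ 0 →
    (FF (Eb.Fc φ N P) 0 → η₀ < a) ∧
      ∀ k v, FF (Eb.Fc φ N P) (k + 1) → vol (k + 1) (pb h.ψ N) ≤ v → η k v < a

/-- **VBCUT**: the ladder of tigers -/
def VBCUT : Prop := ∀ (n : ℕ) (η₀ : ℝ) (η : ℕ → ℝ → ℝ), 0 < η₀ → (∀ k v, 0 < η k v) → ∃ V : ℝ,
  ForN n fun K _ _ => ∀ Λ N Γ : BD K, Smp Λ → Big Λ → Dsc Λ Γ → Bdy n Λ Γ → Klt (n + 1) Γ →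
    AmpOn Λ N → NT n η₀ η Λ N Γ → vol (n + 1) N ≤ V

end Vale.Agent.P283B.Vo
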