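import Vale.Agent.P283B.VOL.St2
import Vale.Agent.P283B.VOL.Klt
import Vale.Agent.P283B.ACC.Wv

/-!
# P283B, block VOL: the data of CORE are of bounded size (`SZ`)
-/

set_option linter.unusedVariables false

open Set Function

noncomputable section

namespace Vale.Agent.P283B.Vo

open P287D

variable {K : Type} [Field K] [Algebra ℂ K] {n : ℕ} {β : BD K}

/-- the rows of the intersection numbers from `MOD` and `INT` -/
theorem row_of (hM : MOD) (hI : INT) (hK : FF K (n + 1)) : In.Row (n + 1) K := by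
  have nn : ∀ (b : Fin (n + 1) → BD K) i, b i ∈ Car K → Psef (b i) → (∀ j, j ≠ i → Nef (b j)) →
      0 ≤ I (n + 1) K b := fun b i a p c => by
    have e : b ∘ Equiv.swap 0 i = Fin.cons (b i) fun j => b (Equiv.swap 0 i j.succ) := by
      funext j
      induction j using Fin.cases with
      | zero => simp
      | succ j => simp
    rw [← hI.perm _ K hK b (Equiv.swap 0 i) fun j => if e : j = i then e ▸ a else (c j e).car, e]
    exact hI.nn n K hK _ _ p ((hM.isb n K hK).1 _ a) fun j => c _ fun e =>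
      Fin.succ_ne_zero j ((Equiv.swap 0 i).injective (e.trans (Equiv.swap_apply_left _ _).symm))
  exact ⟨Wv.ml hM hI hK, fun b k => nn b 0 (k 0).car (k 0).psef fun j _ => k j, nn,
    fun b i k p => hI.prn _ K hK b i (fun j _ => k j) p⟩

/-- a generating system of sections which contains `1` and a transcendence basis -/
theorem exists_sys (hM : MOD) (hK : FF K (n + 1)) (h : β ∈ Car K) (hb : Bir β) :
    ∃ (f₀ : K) (S : Finset K) (x : Fin (n + 1) → K), f₀ ≠ 0 ∧ 1 ∈ S ∧
      IntermediateField.adjoin ℂ (S : Set K) = ⊤ ∧ AlgebraicIndependent ℂ x ∧ (∀ a, x a ∈ S) ∧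
      (∀ f ∈ S, Sec (β + dv f₀) f) ∧ 0 ≤ kap x + (n + 2 : ℝ) • (β + dv f₀) := by
  classical
  have := hM.fin n K hK β ((hM.isb n K hK).1 β h)
  obtain ⟨s, hs⟩ := (Module.Finite.iff_fg (N := H0 β)).1 this
  obtain ⟨f₀, f, h0, s₀, sf, hi⟩ := Vk.basis_of hK (Vk.bir_alg hb)
  have q : ∀ u, Sec β u → Sec (β + dv f₀) (u / f₀) := fun u hu => by
    rwa [sec_add_dv h0, div_mul_cancel₀ _ h0]
  refine ⟨f₀, insert 1 (s.image (· / f₀) ∪ Finset.univ.image fun i => f i / f₀),
    fun i => f i / f₀, h0, Finset.mem_insert_self _ _, ?_, hi, fun a => ?_, fun u hu => ?_,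
    fun P => ?_⟩
  · refine eq_top_iff.2 (hb ▸ IntermediateField.adjoin_le_iff.2 ?_)
    have k : ∀ u, Sec β u → u / f₀ ∈ IntermediateField.adjoin ℂ
        ((insert 1 (s.image (· / f₀) ∪ Finset.univ.image fun i => f i / f₀) : Finset K) :
          Set K) := fun u hu => by
      have m : u ∈ Submodule.span ℂ (s : Set K) := hs ▸ mem_H0.2 hu
      clear hu
      induction m using Submodule.span_induction with
      | mem v hv =>
        exact IntermediateField.subset_adjoin _ _ (Finset.mem_coe.2 (Finset.mem_insert_of_mem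
          (Finset.mem_union_left _ (Finset.mem_image_of_mem _ hv))))
      | zero => simp
      | add v w _ _ a b => rw [add_div]; exact add_mem a b
      | smul c v _ a => rw [smul_div_assoc]; exact IntermediateField.smul_mem _ a
    rintro _ ⟨u, v, a, b, rfl⟩
    rw [← div_div_div_cancel_right₀ h0]
    exact div_mem (k u a) (k v b)
  · exact Finset.mem_insert_of_mem (Finset.mem_union_right _
      (Finset.mem_image_of_mem _ (Finset.mem_univ a)))
  · rcases Finset.mem_insert.1 hu with rfl | hu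
    · simpa [div_self h0] using q f₀ s₀
    · rcases Finset.mem_union.1 hu with hu | hu
      · obtain ⟨v, hv, rfl⟩ := Finset.mem_image.1 hu
        exact q v (mem_H0.1 (hs ▸ Submodule.subset_span hv))
      · obtain ⟨i, -, rfl⟩ := Finset.mem_image.1 hu
        exact q _ (sf i)
  · obtain ⟨a, ha, a0, ea⟩ := P.exists_mz (s := insert f₀ (Finset.univ.image f))
      ⟨f₀, Finset.mem_insert_self _ _, h0⟩
    have m : ∀ g ∈ insert f₀ (Finset.univ.image f), g / a ∈ P.ring := fun g hg => by
      by_cases g0 : g = 0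
      · simp [g0]
      have := P.le_mz hg g0
      rw [← P297Z.Pl.ord_nonneg_iff _ (div_ne_zero g0 a0), P297Z.Pl.ord_div _ g0 a0]
      omega
    have sa : Sec β a := by
      rcases Finset.mem_insert.1 ha with rfl | ha
      · exact s₀
      · obtain ⟨i, -, rfl⟩ := Finset.mem_image.1 ha
        exact sf i
    have k := Vk.kap_div hK h0 hi P a0 (m _ (Finset.mem_insert_self _ _)) fun i =>
      m _ (Finset.mem_insert_of_mem (Finset.mem_image_of_mem f (Finset.mem_univ i)))
    have k' := sa.resolve_left a0 P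
    simp only [Pi.zero_apply, Pi.add_apply, dv_apply, Pi.smul_apply, smul_eq_mul] at k' ⊢
    push_cast at k
    have := mul_nonneg (by positivity : (0 : ℝ) ≤ n + 2) k'
    linarith

theorem sz_of (hM : MOD) (hI : INT) (hV : VOL) (hN : NEG) : SZ := by
  classical
  intro n N V hN0
  refine ⟨(N * (n + 2)) ^ (n + 1) * V, ⌈(n + 1) * ((N * (n + 2)) ^ (n + 1) * V : ℝ)⌉₊ + 1,
    fun K _ _ hK Λ β G₀ g sΛ bΛ dβ dG nβ bir G0 nG hv g0 hg => ?_⟩
  obtain ⟨f₀, S₀, x, h0, o, gen, hi, xs, sec, hk⟩ := exists_sys hM hK nβ.car bir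
  obtain ⟨j, j0, ej⟩ := Cb.kap_cn hK hi
  have r := row_of hM hI hK
  have N1 : (1 : ℝ) ≤ N := Nat.one_le_cast.2 hN0
  have n0 : (0 : ℝ) ≤ n := Nat.cast_nonneg n
  set m : ℝ := N * (n + 2) with hm
  have m1 : 1 ≤ m := by nlinarith
  have mN : (N : ℝ) ≤ m := by nlinarith
  have b0 : 0 ≤ β + dv f₀ := sec_one.1 (sec 1 o)
  have ψ0 : g * j ^ N ≠ 0 := mul_ne_zero g0 (pow_ne_zero _ j0)
  have sψ : 0 ≤ dv (g * j ^ N) + m • (β + dv f₀ + G₀) := by
    refine (hN.nn n K hK Λ _ sΛ bΛ ((Dsc.dv sΛ _).add
      (((dβ.add (Dsc.dv sΛ _)).add dG).smul _)) fun P hP => ?_).1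
    have a := hg P hP
    have b := mul_nonneg (Nat.cast_nonneg (α := ℝ) N) (hk P)
    have c := mul_nonneg (sub_nonneg.2 mN) (G0 P)
    rw [ej] at b
    rw [dv_mul g0 (pow_ne_zero _ j0), dv_pow]
    simp only [Pi.add_apply, dv_apply, Pi.smul_apply, smul_eq_mul, hm] at b c ⊢
    linarith
  have o' : (1 : K) ∈ insert (g * j ^ N) S₀ := Finset.mem_insert_of_mem o
  have gen' : IntermediateField.adjoin ℂ ((insert (g * j ^ N) S₀ : Finset K) : Set K) = ⊤ :=
    eq_top_iff.2 (gen ▸ IntermediateField.adjoin.mono _ _ _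
      (Finset.coe_subset.2 (Finset.subset_insert _ _)))
  have le : mx (insert (g * j ^ N) S₀) ≤ m • (β + dv f₀ + G₀) := by
    refine mx_le ⟨1, o', one_ne_zero⟩ fun u hu => ?_
    rcases Finset.mem_insert.1 hu with rfl | hu
    · exact Or.inr sψ
    · refine (sec u hu).mono fun P => ?_
      have a := mul_nonneg (sub_nonneg.2 m1) (b0 P)
      have c := mul_nonneg (zero_le_one.trans m1) (G0 P)
      simp only [Pi.add_apply, Pi.smul_apply, smul_eq_mul] at a c ⊢
      linarith
  have xs' : ∀ a, x a ∈ insert (g * j ^ N) S₀ := fun a => Finset.mem_insert_of_mem (xs a)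
  have ψ' : g * j ^ N ∈ insert (g * j ^ N) S₀ := Finset.mem_insert_self _ _
  generalize insert (g * j ^ N) S₀ = S at o' gen' le xs' ψ'
  have nB : Nef (m • (β + G₀)) := (nβ.add nG).smul (zero_le_one.trans m1)
  have pS : Psef (m • (β + G₀) - mx S) :=
    ((Eff.of_nonneg (sub_nonneg.2 le)).congr (by
      have e : m • (β + G₀) - mx S - (m • (β + dv f₀ + G₀) - mx S) = (-m) • dv f₀ := by module
      rw [e]
      exact Submodule.smul_mem _ _ (dv_mem_Prn _))).psef
  have pβ : Psef (m • (β + G₀) - β) := by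
    have e : m • (β + G₀) - β = (m - 1) • β + m • G₀ := by module
    rw [e]
    exact ((nβ.smul (sub_nonneg.2 m1)).add (nG.smul (zero_le_one.trans m1))).psef
  have vB : vol (n + 1) (m • (β + G₀)) ≤ m ^ (n + 1) * V := by
    rw [r.vol_smul _ (nβ.add nG).car]
    exact mul_le_mul_of_nonneg_left hv (by positivity)
  have bS : Big (mx S) := big_mx fun f => isAlgebraic_algebraMap (⟨f, by
    have : IntermediateField.adjoin ℂ (S : Set K) ≤ rts S :=
      IntermediateField.adjoin_le_iff.2 fun u hu => by simpa using div_mem_rts hu o'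
    exact this (gen'.ge trivial)⟩ : rts S)
  have v1 := Wv.one_le_vol hM hI hV hK (mx_mem_CarZ S) (nef_mx S) bS
  refine ⟨S, x, j, j0, ej, o', gen', (hV.mono _ K hK _ _ (nef_mx S) nB pS).trans vB, hi, xs', ψ',
    ?_⟩
  set c : ℝ := ((⌈(n + 1) * (m ^ (n + 1) * V)⌉₊ + 1 : ℕ) : ℝ) with hc
  have c1 : (n + 1) * (m ^ (n + 1) * V) < c := by
    rw [hc]
    push_cast
    exact (Nat.le_ceil _).trans_lt (lt_add_one _)
  have c0 : 0 < c := by rw [hc]; positivity
  refine hV.siu n K hK _ _ ((nef_mx S).smul c0.le) nβ ?_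
  have e : I (n + 1) K (Fin.cons β fun _ => c • mx S) =
      c ^ n * I (n + 1) K (Fin.cons β fun _ => mx S) := by
    have := r.ml.smul_all (Fin.cons 1 fun _ => c) (Fin.cons β fun _ => mx S) fun i => by
      induction i using Fin.cases with
      | zero => exact nβ.car
      | succ i => exact mx_mem_Car S
    rw [Fin.prod_univ_succ] at this
    simp only [Fin.cons_zero, Fin.cons_succ, one_mul, Finset.prod_const, Finset.card_univ,
      Fintype.card_fin] at this
    rw [← this]
    congr 1
    funext i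
    induction i using Fin.cases with
    | zero => simp
    | succ i => simp
  have le' : I (n + 1) K (Fin.cons β fun _ => mx S) ≤ vol (n + 1) (m • (β + G₀)) := by
    refine r.mono (fun i => ?_) (fun _ => nB) fun i => ?_
    · induction i using Fin.cases with
      | zero => exact nβ
      | succ i => exact nef_mx S
    · induction i using Fin.cases with
      | zero => exact pβ
      | succ i => exact pS
  rw [e, r.vol_smul _ (mx_mem_Car S), pow_succ, mul_left_comm, mul_assoc]
  refine mul_lt_mul_of_pos_left ?_ (pow_pos c0 n)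
  have := mul_le_mul_of_nonneg_left (le'.trans vB) (by positivity : (0 : ℝ) ≤ n + 1)
  have := mul_le_mul_of_nonneg_left v1 c0.le
  linarith

end Vale.Agent.P283B.Vo
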